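import Mathlib

/-!
Series `∑ c n t * x ^ n` whose coefficients are functions of `t`: evaluation, term by term
differentiation and partial derivatives.
-/

noncomputable section

open Set Filter Metric
open scoped Topology ContDiff

namespace Vale.Agent.P229

/-- The first basis vector of the plane. -/
def ex0 : ℝ × ℝ := (1, 0)

/-- The second basis vector of the plane. -/
def ex1 : ℝ × ℝ := (0, 1)

/-- Partial derivative in the first variable. -/
def Dt {E : Type*} [NormedAddCommGroup E] [NormedSpace ℝ E] (f : ℝ × ℝ → E) (q : ℝ × ℝ) : E :=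
  fderiv ℝ f q ex0

/-- Partial derivative in the second variable. -/
def Dx {E : Type*} [NormedAddCommGroup E] [NormedSpace ℝ E] (f : ℝ × ℝ → E) (q : ℝ × ℝ) : E :=
  fderiv ℝ f q ex1

/-- The sum of the series with coefficient functions `c`. -/
def ev (c : ℕ → ℝ → ℝ) (q : ℝ × ℝ) : ℝ := ∑' n, c n q.1 * q.2 ^ n

/-- The coefficients of the derivative in the second variable. -/
def dX (c : ℕ → ℝ → ℝ) (n : ℕ) (t : ℝ) : ℝ := (n + 1) * c (n + 1) t

/-- Geometric bound of the coefficients on a time interval. -/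
def Geo (c : ℕ → ℝ → ℝ) (T R : ℝ) : Prop :=
  ∃ M : ℝ, ∀ n t, |t| ≤ T → |c n t| * R ^ n ≤ M

/-- The box around the origin. -/
def box (T R : ℝ) : Set (ℝ × ℝ) := Ioo (-T) T ×ˢ Ioo (-R) R

lemma isOpen_box (T R : ℝ) : IsOpen (box T R) := isOpen_Ioo.prod isOpen_Ioo

lemma mem_box {T R : ℝ} {q : ℝ × ℝ} : q ∈ box T R ↔ |q.1| < T ∧ |q.2| < R := by
  simp [box, abs_lt, Set.mem_prod]

variable {T R : ℝ} {c c' : ℕ → ℝ → ℝ}

lemma Geo.summable_norm (h : Geo c T R) (hR : 0 < R) {t x : ℝ} (ht : |t| ≤ T) (hx : |x| < R) :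
    Summable fun n => |c n t * x ^ n| := by
  obtain ⟨M, hM⟩ := h
  refine Summable.of_nonneg_of_le (fun n => abs_nonneg _) (fun n => ?_)
    ((summable_geometric_of_lt_one (by positivity) ((div_lt_one hR).2 hx)).mul_left M)
  rw [abs_mul, abs_pow, div_pow, ← mul_div_assoc, le_div_iff₀ (pow_pos hR n)]
  calc |c n t| * |x| ^ n * R ^ n = |c n t| * R ^ n * |x| ^ n := by ring
    _ ≤ M * |x| ^ n := mul_le_mul_of_nonneg_right (hM n t ht) (by positivity)

lemma Geo.summable (h : Geo c T R) (hR : 0 < R) {t x : ℝ} (ht : |t| ≤ T) (hx : |x| < R) :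
    Summable fun n => c n t * x ^ n :=
  (h.summable_norm hR ht hx).of_abs

lemma Geo.dX (h : Geo c T R) {R' : ℝ} (hR' : 0 < R') (hlt : R' < R) : Geo (dX c) T R' := by
  obtain ⟨M, hM⟩ := h
  have hR : 0 < R := hR'.trans hlt
  obtain ⟨B, hB⟩ := (tendsto_self_mul_const_pow_of_lt_one (by positivity)
    ((div_lt_one hR).2 hlt) : Tendsto (fun n : ℕ => (n : ℝ) * (R' / R) ^ n) atTop (𝓝 0)).bddAbove_range
  refine ⟨B * (max M 0 / R'), fun n t ht => ?_⟩
  have hb : ((n + 1 : ℕ) : ℝ) * (R' / R) ^ (n + 1) ≤ B := hB ⟨n + 1, rfl⟩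
  have h1 := (hM (n + 1) t ht).trans (le_max_left _ 0)
  push_cast at hb
  calc |Vale.Agent.P229.dX c n t| * R' ^ n
      = ((n : ℝ) + 1) * (R' / R) ^ (n + 1) * ((|c (n + 1) t| * R ^ (n + 1)) / R') := by
        rw [Vale.Agent.P229.dX, abs_mul, abs_of_nonneg (by positivity : (0:ℝ) ≤ (n:ℝ) + 1), div_pow,
          pow_succ R' n]
        field_simp
    _ ≤ B * (max M 0 / R') := by
        refine mul_le_mul hb (div_le_div_of_nonneg_right h1 hR'.le) (by positivity) ?_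
        exact le_trans (by positivity) hb

lemma Geo.mono (h : Geo c T R) {R' : ℝ} (hR' : 0 ≤ R') (hle : R' ≤ R) : Geo c T R' := by
  obtain ⟨M, hM⟩ := h
  exact ⟨M, fun n t ht => le_trans
    (mul_le_mul_of_nonneg_left (pow_le_pow_left₀ hR' hle n) (abs_nonneg _)) (hM n t ht)⟩

/-- A series with continuous coefficients is continuous. -/
lemma continuousOn_ev (h : Geo c T R) (hc : ∀ n, ContinuousOn (c n) (Ioo (-T) T)) :
    ContinuousOn (ev c) (box T R) := by
  intro q hq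
  obtain ⟨h1, h2⟩ := mem_box.1 hq
  obtain ⟨R1, hlo, hhi⟩ := exists_between h2
  have hR1 : 0 < R1 := (abs_nonneg _).trans_lt hlo
  obtain ⟨M, hM⟩ := h
  have hR : 0 < R := hR1.trans hhi
  refine ContinuousAt.continuousWithinAt (ContinuousOn.continuousAt ?_
    ((isOpen_box T R1).mem_nhds (mem_box.2 ⟨h1, hlo⟩)))
  refine continuousOn_tsum (u := fun n => max M 0 * (R1 / R) ^ n) (fun n => ?_)
    ((summable_geometric_of_lt_one (by positivity) ((div_lt_one hR).2 hhi)).mul_left _)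
    fun n y hy => ?_
  · exact ((hc n).comp continuous_fst.continuousOn fun y hy => hy.1).mul
      (continuous_snd.continuousOn.pow n)
  · obtain ⟨y1, y2⟩ := mem_box.1 hy
    rw [Real.norm_eq_abs, abs_mul, abs_pow, div_pow, ← mul_div_assoc,
      le_div_iff₀ (pow_pos hR n)]
    calc |c n y.1| * |y.2| ^ n * R ^ n = |c n y.1| * R ^ n * |y.2| ^ n := by ring
      _ ≤ max M 0 * R1 ^ n := mul_le_mul ((hM n y.1 y1.le).trans (le_max_left _ _))
          (pow_le_pow_left₀ (abs_nonneg _) y2.le n) (by positivity) (le_max_right _ _)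

/-- A bound of a term of the series. -/
lemma term_bound {a : ℝ} {n : ℕ} {A R1 R2 x : ℝ} (hR2 : 0 < R2) (ha : |a| * R2 ^ n ≤ A)
    (hx : |x| ≤ R1) : |a| * |x| ^ n ≤ max A 0 * (R1 / R2) ^ n := by
  rw [div_pow, ← mul_div_assoc, le_div_iff₀ (pow_pos hR2 n)]
  calc |a| * |x| ^ n * R2 ^ n = |a| * R2 ^ n * |x| ^ n := by ring
    _ ≤ max A 0 * R1 ^ n := mul_le_mul (ha.trans (le_max_left _ _))
        (pow_le_pow_left₀ (abs_nonneg _) hx n) (by positivity) (le_max_right _ _)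

/-- The derivative of a term. -/
def termD (c c' : ℕ → ℝ → ℝ) (n : ℕ) (y : ℝ × ℝ) : ℝ × ℝ →L[ℝ] ℝ :=
  (c' n y.1 * y.2 ^ n) • ContinuousLinearMap.fst ℝ ℝ ℝ +
    (c n y.1 * (n * y.2 ^ (n - 1))) • ContinuousLinearMap.snd ℝ ℝ ℝ

lemma norm_termD_le {n : ℕ} {A B R1 R2 : ℝ} {y : ℝ × ℝ} (hR1 : 0 < R1) (hR2 : 0 < R2)
    (hA : ∀ n, |c' n y.1| * R2 ^ n ≤ A) (hB : ∀ n, |dX c n y.1| * R2 ^ n ≤ B)
    (hy : |y.2| ≤ R1) :
    ‖termD c c' n y‖ ≤ (max A 0 + max B 0 * (R2 / R1)) * (R1 / R2) ^ n := by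
  refine (norm_add_le _ _).trans ?_
  rw [norm_smul, norm_smul, add_mul]
  refine add_le_add ((mul_le_of_le_one_right (norm_nonneg _)
    (ContinuousLinearMap.norm_fst_le ..)).trans ?_) ((mul_le_of_le_one_right (norm_nonneg _)
    (ContinuousLinearMap.norm_snd_le ..)).trans ?_)
  · rw [Real.norm_eq_abs, abs_mul, abs_pow]
    exact term_bound hR2 (hA n) hy
  · rcases Nat.eq_zero_or_pos n with rfl | hn
    · simp only [Nat.cast_zero, zero_mul, mul_zero, norm_zero]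
      positivity
    obtain ⟨m, rfl⟩ : ∃ m, n = m + 1 := ⟨n - 1, by omega⟩
    rw [Nat.add_sub_cancel]
    have e : ‖c (m + 1) y.1 * (((m + 1 : ℕ) : ℝ) * y.2 ^ m)‖ = |dX c m y.1| * |y.2| ^ m := by
      rw [Real.norm_eq_abs, dX, abs_mul, abs_mul, abs_mul, abs_pow]
      push_cast
      ring
    have e2 : max B 0 * (R2 / R1) * (R1 / R2) ^ (m + 1) = max B 0 * (R1 / R2) ^ m := by
      rw [pow_succ, div_pow]; field_simp
    rw [e, e2]
    exact term_bound hR2 (hB m) hy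

/-- Term by term differentiation. -/
lemma hasFDerivAt_ev (h : Geo c T R) (h' : Geo c' T R)
    (hd : ∀ n t, t ∈ Ioo (-T) T → HasDerivAt (c n) (c' n t) t) {q : ℝ × ℝ} (hq : q ∈ box T R) :
    HasFDerivAt (ev c) (ev c' q • ContinuousLinearMap.fst ℝ ℝ ℝ +
      ev (dX c) q • ContinuousLinearMap.snd ℝ ℝ ℝ) q := by
  obtain ⟨h1, h2⟩ := mem_box.1 hq
  obtain ⟨R1, hlo, hhi⟩ := exists_between h2
  obtain ⟨R2, hlo2, hhi2⟩ := exists_between hhi
  have hR1 : 0 < R1 := (abs_nonneg _).trans_lt hlo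
  have hR2 : 0 < R2 := hR1.trans hlo2
  obtain ⟨A, hA⟩ := h'.mono hR2.le hhi2.le
  obtain ⟨B, hB⟩ := h.dX hR2 hhi2
  have hus : Summable fun n => (max A 0 + max B 0 * (R2 / R1)) * (R1 / R2) ^ n :=
    (summable_geometric_of_lt_one (by positivity) ((div_lt_one hR2).2 hlo2)).mul_left _
  have hterm : ∀ n : ℕ, ∀ y ∈ box T R1,
      HasFDerivAt (fun y : ℝ × ℝ => c n y.1 * y.2 ^ n) (termD c c' n y) y := by
    intro n y hy
    have ha : HasFDerivAt (fun y : ℝ × ℝ => c n y.1)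
        (c' n y.1 • ContinuousLinearMap.fst ℝ ℝ ℝ) y :=
      (hd n y.1 hy.1).comp_hasFDerivAt y hasFDerivAt_fst
    have hb : HasFDerivAt (fun y : ℝ × ℝ => y.2 ^ n)
        (((n : ℝ) * y.2 ^ (n - 1)) • ContinuousLinearMap.snd ℝ ℝ ℝ) y :=
      (hasDerivAt_pow n y.2).comp_hasFDerivAt y hasFDerivAt_snd
    refine (ha.mul hb).congr_fderiv ?_
    ext v <;> simp [termD, mul_comm]
  have hsum0 : Summable fun n => c n q.1 * q.2 ^ n :=
    h.summable (hR1.trans hhi) h1.le h2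
  have hmain : HasFDerivAt (fun y : ℝ × ℝ => ∑' n, c n y.1 * y.2 ^ n) (∑' n, termD c c' n q) q :=
    hasFDerivAt_tsum_of_isPreconnected (f := fun n (y : ℝ × ℝ) => c n y.1 * y.2 ^ n)
      (f' := termD c c') hus (isOpen_box T R1)
      (isPreconnected_Ioo.prod isPreconnected_Ioo) hterm
      (fun n y hy => norm_termD_le hR1 hR2 (fun n => hA n y.1 (mem_box.1 hy).1.le)
        (fun n => hB n y.1 (mem_box.1 hy).1.le) (mem_box.1 hy).2.le)
      (mem_box.2 ⟨h1, hlo⟩) hsum0 (mem_box.2 ⟨h1, hlo⟩)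
  refine hmain.congr_fderiv ?_
  have s1 : Summable fun n => c' n q.1 * q.2 ^ n :=
    h'.summable (hR1.trans hhi) h1.le h2
  have s2' : Summable fun n => dX c n q.1 * q.2 ^ n :=
    (h.dX hR2 hhi2).summable hR2 h1.le (hlo.trans hlo2)
  set p := fun n => c n q.1 * ((n : ℝ) * q.2 ^ (n - 1)) with hp
  have hshift : (fun n => p (n + 1)) = fun n => dX c n q.1 * q.2 ^ n := by
    funext n
    simp only [hp, dX, Nat.add_sub_cancel]
    push_cast
    ring
  have s2 : Summable p := (summable_nat_add_iff 1).1 (by rw [hshift]; exact s2')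
  have e2 : ∑' n, p n = ev (dX c) q := by
    rw [s2.tsum_eq_zero_add, hshift]
    simp [hp, ev]
  simp only [termD]
  rw [(s1.smul_const _).tsum_add (s2.smul_const _), s1.tsum_smul_const, s2.tsum_smul_const, e2]
  rfl

lemma Dt_ev (h : Geo c T R) (h' : Geo c' T R)
    (hd : ∀ n t, t ∈ Ioo (-T) T → HasDerivAt (c n) (c' n t) t) {q : ℝ × ℝ} (hq : q ∈ box T R) :
    Dt (ev c) q = ev c' q := by
  simp [Dt, (hasFDerivAt_ev h h' hd hq).fderiv, ex0]

lemma Dx_ev (h : Geo c T R) (h' : Geo c' T R)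
    (hd : ∀ n t, t ∈ Ioo (-T) T → HasDerivAt (c n) (c' n t) t) {q : ℝ × ℝ} (hq : q ∈ box T R) :
    Dx (ev c) q = ev (dX c) q := by
  simp [Dx, (hasFDerivAt_ev h h' hd hq).fderiv, ex1]

end Vale.Agent.P229
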