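import Mathlib
import Vale.Agent.P229.Series

/-!
A Banach space of series `∑ c n t * x ^ n`: the norm is `∑ sup |c n t| (rad t) ^ n` for a radius
`rad` which shrinks linearly in `|t|`.  Integration in `t` followed by differentiation in `x` is a
bounded operator of norm `4 T / ρ`.
-/

noncomputable section

open Set Filter Metric
open scoped Topology lp

namespace Vale.Agent.P229

/-- The half length of the time interval and the radius at time zero. -/
structure Par where
  T : ℝ
  ρ : ℝ
  hT : 0 < T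
  hρ : 0 < ρ

namespace Par

variable (P : Par)

/-- The time interval. -/
abbrev Tm : Set ℝ := Icc (-P.T) P.T

/-- The shrinking radius. -/
def rad (t : ℝ) : ℝ := P.ρ * (1 - |t| / (2 * P.T))

/-- Clamping to the time interval. -/
def clamp (t : ℝ) : P.Tm := projIcc (-P.T) P.T (neg_le_self P.hT.le) t

lemma continuous_rad : Continuous P.rad := by unfold rad; fun_prop

lemma continuous_clamp : Continuous P.clamp :=
  continuous_projIcc (h := neg_le_self P.hT.le)

lemma clamp_of_mem {t : ℝ} (h : |t| ≤ P.T) : ((P.clamp t : P.Tm) : ℝ) = t := by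
  simp [clamp, projIcc_of_mem _ (abs_le.1 h)]

lemma clamp_coe (t : P.Tm) : P.clamp (t : ℝ) = t := projIcc_val _ t

lemma abs_le (t : P.Tm) : |(t : ℝ)| ≤ P.T := _root_.abs_le.2 t.2

lemma half_le_rad {t : ℝ} (h : |t| ≤ P.T) : P.ρ / 2 ≤ P.rad t := by
  have h1 : |t| / (2 * P.T) ≤ 1 / 2 := by
    rw [div_le_iff₀ (by linarith [P.hT])]; linarith
  unfold rad
  nlinarith [P.hρ]

lemma rad_pos {t : ℝ} (h : |t| ≤ P.T) : 0 < P.rad t := by linarith [P.half_le_rad h, P.hρ]

lemma rad_le (t : ℝ) : P.rad t ≤ P.ρ := by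
  have : 0 ≤ |t| / (2 * P.T) := by have := P.hT; positivity
  unfold rad
  nlinarith [P.hρ]

lemma rad_anti {s t : ℝ} (h : |s| ≤ |t|) : P.rad t ≤ P.rad s := by
  have : |s| / (2 * P.T) ≤ |t| / (2 * P.T) :=
    div_le_div_of_nonneg_right h (by linarith [P.hT])
  unfold rad
  nlinarith [P.hρ]

end Par

/-- The space of series. -/
abbrev Sp (P : Par) : Type := ↥(lp (fun _ : ℕ => C(P.Tm, ℝ)) 1)

variable {P : Par}

lemma Sp.norm_eq (a : Sp P) : ‖a‖ = ∑' n, ‖a n‖ := by
  rw [lp.norm_eq_tsum_rpow (by simp) a]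
  simp

lemma Sp.summable (a : Sp P) : Summable fun n => ‖a n‖ := by
  have := (lp.memℓp a).summable (by simp)
  simpa using this

lemma Sp.norm_le {a : Sp P} {M : ℕ → ℝ} (hM : Summable M) (h : ∀ n, ‖a n‖ ≤ M n) :
    ‖a‖ ≤ ∑' n, M n := by
  rw [Sp.norm_eq]
  exact a.summable.tsum_le_tsum h hM

/-- The coefficient functions of an element. -/
def coef (a : Sp P) (n : ℕ) (t : ℝ) : ℝ := a n (P.clamp t) / P.rad (P.clamp t : ℝ) ^ n

lemma continuous_coef (a : Sp P) (n : ℕ) : Continuous (coef a n) :=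
  ((a n).continuous.comp P.continuous_clamp).div
    ((P.continuous_rad.comp (continuous_subtype_val.comp P.continuous_clamp)).pow n)
    fun t => (pow_pos (P.rad_pos (P.abs_le _)) n).ne'

lemma abs_coef_mul_le (a : Sp P) (n : ℕ) {t : ℝ} (h : |t| ≤ P.T) :
    |coef a n t| * P.rad t ^ n ≤ ‖a n‖ := by
  have hr := pow_pos (P.rad_pos h) n
  rw [coef, P.clamp_of_mem h, abs_div, abs_of_pos hr, div_mul_cancel₀ _ hr.ne']
  exact (a n).norm_coe_le_norm _

lemma apply_eq_coef (a : Sp P) (n : ℕ) (t : P.Tm) :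
    a n t = coef a n (t : ℝ) * P.rad (t : ℝ) ^ n := by
  rw [coef, P.clamp_coe, div_mul_cancel₀ _ (pow_pos (P.rad_pos (P.abs_le t)) n).ne']

lemma coef_add (a b : Sp P) (n : ℕ) (t : ℝ) : coef (a + b) n t = coef a n t + coef b n t := by
  simp [coef, add_div]

lemma coef_sub (a b : Sp P) (n : ℕ) (t : ℝ) : coef (a - b) n t = coef a n t - coef b n t := by
  simp [coef, sub_div]

lemma coef_smul (r : ℝ) (a : Sp P) (n : ℕ) (t : ℝ) : coef (r • a) n t = r * coef a n t := by
  simp [coef, mul_div_assoc]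

/-- Elements are determined by their coefficients. -/
lemma Sp.ext_coef {a b : Sp P} (h : ∀ n t, |t| ≤ P.T → coef a n t = coef b n t) : a = b := by
  refine lp.ext (funext fun n => ContinuousMap.ext fun t => ?_)
  rw [apply_eq_coef, apply_eq_coef, h n t (P.abs_le t)]

/-- The scaled coefficient function. -/
def scaled (P : Par) (c : ℕ → ℝ → ℝ) (hc : ∀ n, Continuous (c n)) (n : ℕ) : C(P.Tm, ℝ) :=
  ⟨fun t => c n (t : ℝ) * P.rad (t : ℝ) ^ n,
    ((hc n).comp continuous_subtype_val).mul
      ((P.continuous_rad.comp continuous_subtype_val).pow n)⟩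

lemma norm_scaled_le {c : ℕ → ℝ → ℝ} (hc : ∀ n, Continuous (c n)) {M : ℕ → ℝ} {n : ℕ}
    (hb : ∀ t, |t| ≤ P.T → |c n t| * P.rad t ^ n ≤ M n) : ‖scaled P c hc n‖ ≤ M n := by
  have h0 : 0 ≤ M n :=
    le_trans (mul_nonneg (abs_nonneg _) (pow_nonneg (P.rad_pos (by simpa using P.hT.le)).le n))
      (hb 0 (by simpa using P.hT.le))
  refine (ContinuousMap.norm_le _ h0).2 fun t => ?_
  rw [scaled, ContinuousMap.coe_mk, Real.norm_eq_abs, abs_mul,
    abs_of_pos (pow_pos (P.rad_pos (P.abs_le t)) n)]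
  exact hb t (P.abs_le t)

/-- The element with given coefficient functions (zero if they are not summable). -/
def mkSp (P : Par) (c : ℕ → ℝ → ℝ) : Sp P :=
  open Classical in
  if h : ∃ hc : ∀ n, Continuous (c n), Summable fun n => ‖scaled P c hc n‖ then
    ⟨scaled P c h.choose, memℓp_gen (by simpa using h.choose_spec)⟩
  else 0

/-- The hypotheses under which `mkSp` has the given coefficients. -/
structure Adm (P : Par) (c : ℕ → ℝ → ℝ) (M : ℕ → ℝ) : Prop where
  cont : ∀ n, Continuous (c n)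
  bound : ∀ n t, |t| ≤ P.T → |c n t| * P.rad t ^ n ≤ M n
  sum : Summable M

namespace Adm

variable {c : ℕ → ℝ → ℝ} {M : ℕ → ℝ}

lemma exists_summable (h : Adm P c M) :
    ∃ hc : ∀ n, Continuous (c n), Summable fun n => ‖scaled P c hc n‖ :=
  ⟨h.cont, Summable.of_nonneg_of_le (fun n => norm_nonneg _)
    (fun n => norm_scaled_le h.cont fun t ht => h.bound n t ht) h.sum⟩

lemma apply_mkSp (h : Adm P c M) (n : ℕ) : mkSp P c n = scaled P c h.cont n := by
  rw [mkSp, dif_pos h.exists_summable]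

lemma coef_mkSp (h : Adm P c M) (n : ℕ) {t : ℝ} (ht : |t| ≤ P.T) : coef (mkSp P c) n t = c n t := by
  rw [coef, h.apply_mkSp, scaled, ContinuousMap.coe_mk, P.clamp_of_mem ht,
    mul_div_cancel_right₀ _ (pow_pos (P.rad_pos ht) n).ne']

lemma norm_mkSp_le (h : Adm P c M) : ‖mkSp P c‖ ≤ ∑' n, M n :=
  Sp.norm_le h.sum fun n => by
    rw [h.apply_mkSp]; exact norm_scaled_le h.cont fun t ht => h.bound n t ht

end Adm

/-- The product of two series. -/
def smul' (a b : Sp P) : Sp P :=
  mkSp P fun n t => ∑ k ∈ Finset.range (n + 1), coef a k t * coef b (n - k) t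

lemma adm_smul' (a b : Sp P) :
    Adm P (fun n t => ∑ k ∈ Finset.range (n + 1), coef a k t * coef b (n - k) t)
      (fun n => ∑ k ∈ Finset.range (n + 1), ‖a k‖ * ‖b (n - k)‖) where
  cont n := continuous_finsetSum _ fun k _ =>
    (continuous_coef a k).mul (continuous_coef b (n - k))
  bound n t ht := by
    have hr := (P.rad_pos ht).le
    refine (mul_le_mul_of_nonneg_right (Finset.abs_sum_le_sum_abs _ _) (pow_nonneg hr n)).trans ?_
    rw [Finset.sum_mul]
    refine Finset.sum_le_sum fun k hk => ?_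
    rw [Finset.mem_range] at hk
    calc |coef a k t * coef b (n - k) t| * P.rad t ^ n
        = (|coef a k t| * P.rad t ^ k) * (|coef b (n - k) t| * P.rad t ^ (n - k)) := by
          rw [abs_mul, mul_mul_mul_comm, ← pow_add, Nat.add_sub_cancel' (by omega)]
      _ ≤ _ := mul_le_mul (abs_coef_mul_le a k ht) (abs_coef_mul_le b _ ht)
          (mul_nonneg (abs_nonneg _) (pow_nonneg hr _)) (norm_nonneg _)
  sum := by
    have h := summable_norm_sum_mul_range_of_summable_norm (f := fun k => ‖a k‖)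
      (g := fun k => ‖b k‖) (by simpa using a.summable) (by simpa using b.summable)
    exact h.of_norm

lemma norm_smul'_le (a b : Sp P) : ‖smul' a b‖ ≤ ‖a‖ * ‖b‖ := by
  refine (adm_smul' a b).norm_mkSp_le.trans (le_of_eq ?_)
  rw [Sp.norm_eq a, Sp.norm_eq b,
    tsum_mul_tsum_eq_tsum_sum_range_of_summable_norm (by simpa using a.summable)
      (by simpa using b.summable)]

lemma smul'_sub (a b c : Sp P) : smul' a (b - c) = smul' a b - smul' a c := by
  refine Sp.ext_coef fun n t ht => ?_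
  rw [coef_sub, smul', smul', smul', (adm_smul' _ _).coef_mkSp n ht, (adm_smul' _ _).coef_mkSp n ht,
    (adm_smul' _ _).coef_mkSp n ht, ← Finset.sum_sub_distrib]
  exact Finset.sum_congr rfl fun k _ => by rw [coef_sub]; ring

lemma sub_smul' (a b c : Sp P) : smul' (a - b) c = smul' a c - smul' b c := by
  refine Sp.ext_coef fun n t ht => ?_
  rw [coef_sub, smul', smul', smul', (adm_smul' _ _).coef_mkSp n ht, (adm_smul' _ _).coef_mkSp n ht,
    (adm_smul' _ _).coef_mkSp n ht, ← Finset.sum_sub_distrib]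
  exact Finset.sum_congr rfl fun k _ => by rw [coef_sub]; ring

/-- The value of an element at a point. -/
def evS (a : Sp P) (q : ℝ × ℝ) : ℝ := ev (coef a) q

lemma geo_coef (a : Sp P) : Geo (coef a) P.T (P.ρ / 2) :=
  ⟨‖a‖, fun n t ht => le_trans (mul_le_mul_of_nonneg_left
    (pow_le_pow_left₀ (by linarith [P.hρ]) (P.half_le_rad ht) n) (abs_nonneg _))
    ((abs_coef_mul_le a n ht).trans (lp.norm_apply_le_norm (by simp) a n))⟩

lemma summable_evS (a : Sp P) {q : ℝ × ℝ} (hq : q ∈ box P.T (P.ρ / 2)) :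
    Summable fun n => ‖coef a n q.1 * q.2 ^ n‖ := by
  obtain ⟨h1, h2⟩ := mem_box.1 hq
  simpa using (geo_coef a).summable_norm (by linarith [P.hρ]) h1.le h2

lemma summable_evS' (a : Sp P) {q : ℝ × ℝ} (hq : q ∈ box P.T (P.ρ / 2)) :
    Summable fun n => coef a n q.1 * q.2 ^ n :=
  (geo_coef a).summable (by linarith [P.hρ]) (mem_box.1 hq).1.le (mem_box.1 hq).2

lemma evS_add (a b : Sp P) {q : ℝ × ℝ} (hq : q ∈ box P.T (P.ρ / 2)) :
    evS (a + b) q = evS a q + evS b q := by
  unfold evS ev
  rw [← (summable_evS' a hq).tsum_add (summable_evS' b hq)]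
  exact tsum_congr fun n => by rw [coef_add, add_mul]

lemma evS_sub (a b : Sp P) {q : ℝ × ℝ} (hq : q ∈ box P.T (P.ρ / 2)) :
    evS (a - b) q = evS a q - evS b q := by
  unfold evS ev
  rw [← (summable_evS' a hq).tsum_sub (summable_evS' b hq)]
  exact tsum_congr fun n => by rw [coef_sub, sub_mul]

lemma evS_smul (r : ℝ) (a : Sp P) (q : ℝ × ℝ) : evS (r • a) q = r * evS a q := by
  unfold evS ev
  rw [← tsum_mul_left]
  exact tsum_congr fun n => by rw [coef_smul, mul_assoc]

lemma evS_smul' (a b : Sp P) {q : ℝ × ℝ} (hq : q ∈ box P.T (P.ρ / 2)) :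
    evS (smul' a b) q = evS a q * evS b q := by
  unfold evS ev
  rw [tsum_mul_tsum_eq_tsum_sum_range_of_summable_norm (summable_evS a hq) (summable_evS b hq)]
  refine tsum_congr fun n => ?_
  rw [smul', (adm_smul' a b).coef_mkSp n (mem_box.1 hq).1.le, Finset.sum_mul]
  refine Finset.sum_congr rfl fun k hk => ?_
  rw [Finset.mem_range] at hk
  rw [mul_mul_mul_comm, ← pow_add, Nat.add_sub_cancel' (by omega)]

/-- Integration in time. -/
def intT (a : Sp P) : Sp P := mkSp P fun n t => ∫ s in (0 : ℝ)..t, coef a n s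

/-- Integration in time followed by differentiation in space. -/
def intX (a : Sp P) : Sp P :=
  mkSp P fun n t => ((n : ℝ) + 1) * ∫ s in (0 : ℝ)..t, coef a (n + 1) s

lemma abs_le_of_mem_uIoc {s t : ℝ} (h : s ∈ uIoc (0 : ℝ) t) : |s| ≤ |t| := by
  rcases le_total 0 t with ht | ht
  · rw [uIoc_of_le ht] at h
    rw [abs_of_nonneg h.1.le, abs_of_nonneg ht]; exact h.2
  · rw [uIoc_of_ge ht] at h
    rw [abs_of_nonpos h.2, abs_of_nonpos ht]; linarith [h.1]

lemma adm_intT (a : Sp P) :
    Adm P (fun n t => ∫ s in (0 : ℝ)..t, coef a n s) (fun n => P.T * ‖a n‖) where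
  cont n := intervalIntegral.continuous_primitive
    (fun u v => (continuous_coef a n).intervalIntegrable u v) 0
  bound n t ht := by
    have hr := pow_pos (P.rad_pos ht) n
    have h : ‖∫ s in (0 : ℝ)..t, coef a n s‖ ≤ ‖a n‖ / P.rad t ^ n * |t - 0| := by
      refine intervalIntegral.norm_integral_le_of_norm_le_const fun s hs => ?_
      have hst := abs_le_of_mem_uIoc hs
      rw [Real.norm_eq_abs, le_div_iff₀ hr]
      exact le_trans (mul_le_mul_of_nonneg_left
        (pow_le_pow_left₀ (P.rad_pos ht).le (P.rad_anti hst) n) (abs_nonneg _))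
        (abs_coef_mul_le a n (hst.trans ht))
    rw [sub_zero, Real.norm_eq_abs, div_mul_eq_mul_div, le_div_iff₀ hr] at h
    exact h.trans (by rw [mul_comm]; exact mul_le_mul_of_nonneg_right ht (norm_nonneg _))
  sum := a.summable.mul_left _

lemma norm_intT_le (a : Sp P) : ‖intT a‖ ≤ P.T * ‖a‖ := by
  refine (adm_intT a).norm_mkSp_le.trans (le_of_eq ?_)
  rw [tsum_mul_left, Sp.norm_eq a]

lemma abs_integral_le_of_even {f g : ℝ → ℝ} (hf : Continuous f) (t : ℝ)
    (hg : ContinuousOn g (Icc 0 |t|))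
    (hle : ∀ s, |s| ≤ |t| → |f s| ≤ g |s|) :
    |∫ s in (0 : ℝ)..t, f s| ≤ ∫ s in (0 : ℝ)..|t|, g s := by
  rcases le_total 0 t with ht | ht
  · rw [abs_of_nonneg ht] at hg hle ⊢
    refine (intervalIntegral.abs_integral_le_integral_abs ht).trans ?_
    refine intervalIntegral.integral_mono_on ht (hf.abs.intervalIntegrable _ _)
      (hg.intervalIntegrable_of_Icc ht) fun s hs => ?_
    simpa [abs_of_nonneg hs.1] using hle s (by rw [abs_of_nonneg hs.1]; exact hs.2)
  · rw [abs_of_nonpos ht] at hg hle ⊢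
    have ht' : 0 ≤ -t := neg_nonneg.2 ht
    have e : ∫ s in (0 : ℝ)..t, f s = -∫ s in (0 : ℝ)..-t, f (-s) := by
      rw [intervalIntegral.integral_comp_neg, neg_neg, neg_zero, intervalIntegral.integral_symm]
    rw [e, abs_neg]
    refine (intervalIntegral.abs_integral_le_integral_abs ht').trans ?_
    refine intervalIntegral.integral_mono_on ht'
      ((hf.comp continuous_neg).abs.intervalIntegrable _ _)
      (hg.intervalIntegrable_of_Icc ht') fun s hs => ?_
    simpa [abs_of_nonneg hs.1] using hle (-s) (by rw [abs_neg, abs_of_nonneg hs.1]; exact hs.2)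

lemma adm_intX (a : Sp P) :
    Adm P (fun n t => ((n : ℝ) + 1) * ∫ s in (0 : ℝ)..t, coef a (n + 1) s)
      (fun n => 4 * P.T / P.ρ * ‖a (n + 1)‖) where
  cont n := continuous_const.mul (intervalIntegral.continuous_primitive
    (fun u v => (continuous_coef a (n + 1)).intervalIntegrable u v) 0)
  bound n t ht := by
    have hr := pow_pos (P.rad_pos ht) n
    have hT := P.hT
    have hρ := P.hρ
    set A := ‖a (n + 1)‖ with hA
    rcases Nat.eq_zero_or_pos n with rfl | hn
    · have h : ‖∫ s in (0 : ℝ)..t, coef a (0 + 1) s‖ ≤ A / (P.ρ / 2) * |t - 0| := by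
        refine intervalIntegral.norm_integral_le_of_norm_le_const fun s hs => ?_
        have hst := (abs_le_of_mem_uIoc hs).trans ht
        rw [Real.norm_eq_abs, le_div_iff₀ (by positivity)]
        refine le_trans (mul_le_mul_of_nonneg_left (P.half_le_rad hst) (abs_nonneg _)) ?_
        simpa using abs_coef_mul_le a 1 hst
      rw [sub_zero, Real.norm_eq_abs] at h
      simp only [Nat.cast_zero, zero_add, one_mul, pow_zero, mul_one] at h ⊢
      refine h.trans ((mul_le_mul_of_nonneg_left ht (by positivity)).trans ?_)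
      rw [div_mul_eq_mul_div, div_mul_eq_mul_div, div_le_div_iff₀ (by positivity) hρ]
      nlinarith [mul_nonneg (mul_nonneg (norm_nonneg (a 1)) hT.le) hρ.le]
    set l : ℝ := P.ρ / (2 * P.T) with hl
    have hl0 : 0 < l := by positivity
    have hpos : ∀ s ∈ Icc 0 |t|, 0 < P.ρ - l * s := fun s hs => by
      have hs' : l * s ≤ l * P.T := mul_le_mul_of_nonneg_left (hs.2.trans ht) hl0.le
      have : l * P.T = P.ρ / 2 := by rw [hl]; field_simp
      linarith
    have hrad : ∀ s, P.rad s = P.ρ - l * |s| := fun s => by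
      rw [Par.rad, hl]; field_simp
    have hint : |∫ s in (0 : ℝ)..t, coef a (n + 1) s| ≤
        ∫ s in (0 : ℝ)..|t|, A * ((P.ρ - l * s) ^ (n + 1))⁻¹ := by
      refine abs_integral_le_of_even (continuous_coef a (n + 1)) t ?_ fun s hs => ?_
      · exact continuousOn_const.mul (ContinuousOn.inv₀ (by fun_prop)
          fun s hs => (pow_pos (hpos s hs) _).ne')
      · rw [← hrad, ← div_eq_mul_inv, le_div_iff₀ (pow_pos (P.rad_pos (hs.trans ht)) _)]
        exact abs_coef_mul_le a (n + 1) (hs.trans ht)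
    have hn' : (0 : ℝ) < n := Nat.cast_pos.2 hn
    have hval : ∫ s in (0 : ℝ)..|t|, A * ((P.ρ - l * s) ^ (n + 1))⁻¹ =
        A / (n * l) * ((P.rad t ^ n)⁻¹ - (P.ρ ^ n)⁻¹) := by
      have hd : ∀ s ∈ uIcc 0 |t|, HasDerivAt (fun s => A / (n * l) * ((P.ρ - l * s) ^ n)⁻¹)
          (A * ((P.ρ - l * s) ^ (n + 1))⁻¹) s := by
        intro s hs
        rw [uIcc_of_le (abs_nonneg _)] at hs
        have hp := hpos s hs
        have h1 : HasDerivAt (fun s => P.ρ - l * s) (-l) s := by
          simpa using ((hasDerivAt_id s).const_mul l).const_sub P.ρ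
        refine (((h1.fun_pow n).fun_inv (pow_pos hp n).ne').const_mul _).congr_deriv ?_
        obtain ⟨m, rfl⟩ : ∃ m, n = m + 1 := ⟨n - 1, by omega⟩
        rw [Nat.add_sub_cancel]
        field_simp
        ring
      rw [intervalIntegral.integral_eq_sub_of_hasDerivAt hd
        (ContinuousOn.intervalIntegrable_of_Icc (abs_nonneg _)
          (continuousOn_const.mul (ContinuousOn.inv₀ (by fun_prop)
            fun s hs => (pow_pos (hpos s hs) _).ne'))), ← hrad]
      simp [mul_sub]
    rw [hval] at hint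
    rw [abs_mul, abs_of_nonneg (by positivity : (0 : ℝ) ≤ (n : ℝ) + 1)]
    calc ((n : ℝ) + 1) * |∫ s in (0 : ℝ)..t, coef a (n + 1) s| * P.rad t ^ n
        ≤ ((n : ℝ) + 1) * (A / (n * l) * (P.rad t ^ n)⁻¹) * P.rad t ^ n := by
          refine mul_le_mul_of_nonneg_right (mul_le_mul_of_nonneg_left (hint.trans ?_)
            (by positivity)) hr.le
          exact mul_le_mul_of_nonneg_left (sub_le_self _ (by positivity))
            (div_nonneg (norm_nonneg _) (by positivity))
      _ = ((n : ℝ) + 1) / n * (A / l) := by field_simp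
      _ ≤ 2 * (A / l) := mul_le_mul_of_nonneg_right (by
            rw [div_le_iff₀ hn']
            have : (1 : ℝ) ≤ n := Nat.one_le_cast.2 hn
            linarith) (div_nonneg (norm_nonneg _) hl0.le)
      _ = _ := by rw [hl]; field_simp; ring
  sum := ((summable_nat_add_iff 1).2 a.summable).mul_left _

lemma norm_intX_le (a : Sp P) : ‖intX a‖ ≤ 4 * P.T / P.ρ * ‖a‖ := by
  refine (adm_intX a).norm_mkSp_le.trans ?_
  rw [tsum_mul_left, Sp.norm_eq a, a.summable.tsum_eq_zero_add]
  have := P.hT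
  have := P.hρ
  exact mul_le_mul_of_nonneg_left (le_add_of_nonneg_left (norm_nonneg _)) (by positivity)

lemma intT_sub (a b : Sp P) : intT (a - b) = intT a - intT b := by
  refine Sp.ext_coef fun n t ht => ?_
  rw [coef_sub, intT, intT, intT, (adm_intT _).coef_mkSp n ht, (adm_intT _).coef_mkSp n ht,
    (adm_intT _).coef_mkSp n ht, ← intervalIntegral.integral_sub
      ((continuous_coef a n).intervalIntegrable _ _) ((continuous_coef b n).intervalIntegrable _ _)]
  exact intervalIntegral.integral_congr fun s _ => coef_sub a b n s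

lemma intX_sub (a b : Sp P) : intX (a - b) = intX a - intX b := by
  refine Sp.ext_coef fun n t ht => ?_
  rw [coef_sub, intX, intX, intX, (adm_intX _).coef_mkSp n ht, (adm_intX _).coef_mkSp n ht,
    (adm_intX _).coef_mkSp n ht, ← mul_sub, ← intervalIntegral.integral_sub
      ((continuous_coef a (n + 1)).intervalIntegrable _ _)
      ((continuous_coef b (n + 1)).intervalIntegrable _ _)]
  congr 1
  exact intervalIntegral.integral_congr fun s _ => coef_sub a b (n + 1) s

lemma coef_intT (a : Sp P) (n : ℕ) {t : ℝ} (ht : |t| ≤ P.T) :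
    coef (intT a) n t = ∫ s in (0 : ℝ)..t, coef a n s := (adm_intT a).coef_mkSp n ht

lemma coef_intX (a : Sp P) (n : ℕ) {t : ℝ} (ht : |t| ≤ P.T) :
    coef (intX a) n t = dX (coef (intT a)) n t := by
  rw [intX, (adm_intX a).coef_mkSp n ht, dX, coef_intT a (n + 1) ht]

lemma hasDerivAt_coef_intT (a : Sp P) (n : ℕ) {t : ℝ} (ht : t ∈ Ioo (-P.T) P.T) :
    HasDerivAt (coef (intT a) n) (coef a n t) t := by
  refine ((continuous_coef a n).integral_hasStrictDerivAt 0 t).hasDerivAt.congr_of_eventuallyEq ?_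
  filter_upwards [isOpen_Ioo.mem_nhds ht] with s hs
  exact coef_intT a n (_root_.abs_le.2 ⟨hs.1.le, hs.2.le⟩)

end Vale.Agent.P229
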