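import Mathlib
import Vale.Agent.P229.Space

/-!
Coefficient functions of a smooth function which is analytic in the second variable, and
elementary estimates for the elements which they define.
-/

noncomputable section

open Set Filter Metric
open scoped Topology ContDiff

namespace Vale.Agent.P229

/-- Analyticity in the second variable, uniform for the function and its first two derivatives in
the first variable, near a point. -/
def AnalyticSndNear (f : ℝ × ℝ → ℝ) (p : ℝ × ℝ) : Prop :=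
  ∃ δ C R : ℝ, 0 < δ ∧ ∀ q, dist q p < δ → ∀ i ≤ 2, ∀ n : ℕ,
    |(Dt^[i] (Dx^[n] f)) q| ≤ C * R ^ n * n.factorial

/-- Coefficient functions of a function and of its first two time derivatives. -/
structure Jet (T R : ℝ) where
  c0 : ℕ → ℝ → ℝ
  c1 : ℕ → ℝ → ℝ
  c2 : ℕ → ℝ → ℝ
  cont0 : ∀ n, Continuous (c0 n)
  cont1 : ∀ n, Continuous (c1 n)
  cont2 : ∀ n, Continuous (c2 n)
  geo0 : Geo c0 T R
  geo1 : Geo c1 T R
  geo2 : Geo c2 T R
  deriv0 : ∀ n t, t ∈ Ioo (-T) T → HasDerivAt (c0 n) (c1 n t) t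
  deriv1 : ∀ n t, t ∈ Ioo (-T) T → HasDerivAt (c1 n) (c2 n t) t

lemma Geo.mono_T {c : ℕ → ℝ → ℝ} {T T' R : ℝ} (h : Geo c T R) (hT : T' ≤ T) : Geo c T' R := by
  obtain ⟨M, hM⟩ := h
  exact ⟨M, fun n t ht => hM n t (ht.trans hT)⟩

/-- Restriction of a jet to a smaller box. -/
def Jet.mono {T R : ℝ} (J : Jet T R) {T' R' : ℝ} (hT : T' ≤ T) (hR0 : 0 ≤ R') (hR : R' ≤ R) :
    Jet T' R' where
  c0 := J.c0
  c1 := J.c1
  c2 := J.c2
  cont0 := J.cont0
  cont1 := J.cont1
  cont2 := J.cont2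
  geo0 := (J.geo0.mono_T hT).mono hR0 hR
  geo1 := (J.geo1.mono_T hT).mono hR0 hR
  geo2 := (J.geo2.mono_T hT).mono hR0 hR
  deriv0 n t ht := J.deriv0 n t ⟨by linarith [ht.1], by linarith [ht.2]⟩
  deriv1 n t ht := J.deriv1 n t ⟨by linarith [ht.1], by linarith [ht.2]⟩

lemma contDiffOn_Dx_iterate {O : Set (ℝ × ℝ)} (hO : IsOpen O) {f : ℝ × ℝ → ℝ}
    (hf : ContDiffOn ℝ ∞ f O) : ∀ n, ContDiffOn ℝ ∞ (Dx^[n] f) O
  | 0 => hf
  | n + 1 => by
    rw [Function.iterate_succ_apply']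
    exact ((contDiffOn_Dx_iterate hO hf n).fderiv_of_isOpen hO (by simp)).clm_apply contDiffOn_const

lemma contDiffOn_Dt_iterate {O : Set (ℝ × ℝ)} (hO : IsOpen O) {f : ℝ × ℝ → ℝ}
    (hf : ContDiffOn ℝ ∞ f O) : ∀ n, ContDiffOn ℝ ∞ (Dt^[n] f) O
  | 0 => hf
  | n + 1 => by
    rw [Function.iterate_succ_apply']
    exact ((contDiffOn_Dt_iterate hO hf n).fderiv_of_isOpen hO (by simp)).clm_apply contDiffOn_const

lemma hasDerivAt_slice {O : Set (ℝ × ℝ)} (hO : IsOpen O) {f : ℝ × ℝ → ℝ}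
    (hf : ContDiffOn ℝ ∞ f O) {t x : ℝ} (h : (t, x) ∈ O) :
    HasDerivAt (fun y => f (t, y)) (Dx f (t, x)) x ∧
      HasDerivAt (fun s => f (s, x)) (Dt f (t, x)) t := by
  have hd : HasFDerivAt f (fderiv ℝ f (t, x)) (t, x) :=
    (((hf.differentiableOn (by simp)) _ h).differentiableAt (hO.mem_nhds h)).hasFDerivAt
  exact ⟨hd.comp_hasDerivAt x ((hasDerivAt_const x t).prodMk (hasDerivAt_id x)),
    hd.comp_hasDerivAt t ((hasDerivAt_id t).prodMk (hasDerivAt_const t x))⟩

lemma iteratedDeriv_slice {O : Set (ℝ × ℝ)} (hO : IsOpen O) {f : ℝ × ℝ → ℝ}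
    (hf : ContDiffOn ℝ ∞ f O) (t : ℝ) : ∀ (n : ℕ) (x : ℝ), (t, x) ∈ O →
      iteratedDeriv n (fun y => f (t, y)) x = Dx^[n] f (t, x)
  | 0, x, _ => by simp
  | n + 1, x, hx => by
    rw [iteratedDeriv_succ, Function.iterate_succ_apply']
    have hev : iteratedDeriv n (fun y => f (t, y)) =ᶠ[𝓝 x] fun y => Dx^[n] f (t, y) :=
      ((Continuous.prodMk_right t).continuousAt.eventually_mem (hO.mem_nhds hx)).mono
        fun y hy => iteratedDeriv_slice hO hf t n y hy
    rw [hev.deriv_eq]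
    exact (hasDerivAt_slice hO (contDiffOn_Dx_iterate hO hf n) hx).1.deriv

/-- Taylor's series in the second variable. -/
lemma hasSum_taylor {h : ℝ → ℝ} {C R r x : ℝ} (hh : ContDiffOn ℝ ∞ h (Ioo (-r) r))
    (hb : ∀ y ∈ Ioo (-r) r, ∀ n : ℕ, |iteratedDeriv n h y| ≤ C * R ^ n * n.factorial)
    (hx : |x| < r) (hxR : R * |x| < 1) (hR : 0 ≤ R) :
    HasSum (fun n => iteratedDeriv n h 0 / n.factorial * x ^ n) (h x) := by
  have hr : 0 < r := (abs_nonneg x).trans_lt hx
  have h0 : (0 : ℝ) ∈ Ioo (-r) r := ⟨by linarith, hr⟩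
  set u := fun n : ℕ => iteratedDeriv n h 0 / n.factorial * x ^ n with hu
  have hC : 0 ≤ C := by
    have := hb 0 h0 0
    simp only [pow_zero, mul_one, Nat.factorial_zero, Nat.cast_one] at this
    exact (abs_nonneg _).trans this
  have hsum : Summable u := by
    refine Summable.of_norm (Summable.of_nonneg_of_le (fun n => norm_nonneg _) (fun n => ?_)
      ((summable_geometric_of_lt_one (by positivity) hxR).mul_left C))
    rw [hu, Real.norm_eq_abs, abs_mul, abs_div, Nat.abs_cast, abs_pow, mul_pow, ← mul_assoc]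
    exact mul_le_mul_of_nonneg_right
      ((div_le_iff₀ (by positivity)).2 (hb 0 h0 n)) (by positivity)
  refine hsum.hasSum_iff.2 ?_
  rcases eq_or_ne x 0 with rfl | hx0
  · rw [hsum.tsum_eq_zero_add]
    simp [hu]
  have hsub : uIcc 0 x ⊆ Ioo (-r) r :=
    uIcc_subset_Icc (show (0:ℝ) ∈ Icc (-|x|) |x| from ⟨by simp, abs_nonneg x⟩)
      ⟨neg_abs_le x, le_abs_self x⟩ |>.trans fun y hy => ⟨by linarith [hy.1], by linarith [hy.2]⟩
  have key : ∀ n : ℕ, |h x - ∑ m ∈ Finset.range (n + 1), u m| ≤ C * (R * |x|) ^ (n + 1) := by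
    intro n
    obtain ⟨y, hy, he⟩ := taylor_mean_remainder_lagrange_iteratedDeriv (f := h) (n := n) hx0.symm
      ((hh.mono hsub).of_le (mod_cast le_top))
    have hT : taylorWithinEval h n (uIcc 0 x) 0 x = ∑ m ∈ Finset.range (n + 1), u m := by
      rw [taylor_within_apply]
      refine Finset.sum_congr rfl fun m _ => ?_
      rw [iteratedDerivWithin_eq_iteratedDeriv (uniqueDiffOn_uIcc hx0.symm)
        ((hh.contDiffAt (isOpen_Ioo.mem_nhds h0)).of_le (mod_cast le_top)) left_mem_uIcc,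
        smul_eq_mul, sub_zero, hu]
      field_simp
    rw [hT, sub_zero] at he
    rw [he, abs_div, abs_mul, abs_pow, Nat.abs_cast, div_le_iff₀ (by positivity)]
    calc |iteratedDeriv (n + 1) h y| * |x| ^ (n + 1)
        ≤ C * R ^ (n + 1) * (n + 1).factorial * |x| ^ (n + 1) :=
          mul_le_mul_of_nonneg_right (hb y (hsub (Ioo_subset_Icc_self hy)) (n + 1)) (by positivity)
      _ = _ := by ring
  refine tendsto_nhds_unique (hsum.hasSum.tendsto_sum_nat.comp (tendsto_add_atTop_nat 1)) ?_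
  rw [tendsto_iff_norm_sub_tendsto_zero]
  refine squeeze_zero (fun n => norm_nonneg _) (fun n => ?_)
    (by simpa using ((tendsto_pow_atTop_nhds_zero_of_lt_one (by positivity) hxR).comp
      (tendsto_add_atTop_nat 1)).const_mul C)
  rw [Function.comp_apply, Real.norm_eq_abs, abs_sub_comm]
  exact key n

/-- A smooth function which is analytic in the second variable is the sum of its jet. -/
theorem exists_jet {O : Set (ℝ × ℝ)} (hO : IsOpen O) {f : ℝ × ℝ → ℝ} (hf : ContDiffOn ℝ ∞ f O)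
    {p : ℝ × ℝ} (hp : p ∈ O) (ha : AnalyticSndNear f p) :
    ∃ T R : ℝ, 0 < T ∧ 0 < R ∧ ∃ J : Jet T R, ∀ q ∈ box T R,
      p + q ∈ O ∧ f (p + q) = ev J.c0 q := by
  obtain ⟨δ, C, R0, hδ, hb⟩ := ha
  obtain ⟨ε, hε, hball⟩ := Metric.mem_nhds_iff.1 (hO.mem_nhds hp)
  set T := min δ ε / 2 with hT
  have hT0 : 0 < T := by positivity
  set R1 := |R0| + 1 with hR1
  have hR10 : 0 < R1 := by positivity
  have hb' : ∀ q, dist q p < δ → ∀ i ≤ 2, ∀ n : ℕ,
      |(Dt^[i] (Dx^[n] f)) q| ≤ |C| * R1 ^ n * n.factorial := by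
    intro q hq i hi n
    refine (hb q hq i hi n).trans (le_trans (le_abs_self _) ?_)
    rw [abs_mul, abs_mul, abs_pow, Nat.abs_cast]
    exact mul_le_mul_of_nonneg_right (mul_le_mul_of_nonneg_left
      (pow_le_pow_left₀ (abs_nonneg _) (by linarith) n) (abs_nonneg _)) (by positivity)
  set cl : ℝ → ℝ := fun t => (projIcc (-T) T (by linarith) t : ℝ) with hcl
  have hclc : Continuous cl := continuous_subtype_val.comp continuous_projIcc
  have hcl_abs : ∀ t, |cl t| ≤ T := fun t => abs_le.2 (projIcc (-T) T (by linarith) t).2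
  have hcl_eq : ∀ t, t ∈ Ioo (-T) T → cl t = t := fun t ht => by
    rw [hcl]
    simp [projIcc_of_mem _ (Ioo_subset_Icc_self ht)]
  have hdist : ∀ q : ℝ × ℝ, |q.1| ≤ T → |q.2| ≤ T → dist (p + q) p < min δ ε := by
    intro q h1 h2
    rw [dist_eq_norm, add_sub_cancel_left, Prod.norm_def, Real.norm_eq_abs, Real.norm_eq_abs]
    exact lt_of_le_of_lt (max_le h1 h2) (by rw [hT]; linarith [lt_min hδ hε])
  have hline : ∀ t, |t| ≤ T → (p.1 + t, p.2) ∈ O ∧ dist ((p.1 + t, p.2) : ℝ × ℝ) p < δ := by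
    intro t ht
    have h := hdist (t, 0) ht (by simpa using hT0.le)
    rw [show p + (t, 0) = (p.1 + t, p.2) from Prod.ext rfl (add_zero _)] at h
    exact ⟨hball (mem_ball.2 (h.trans_le (min_le_right _ _))), h.trans_le (min_le_left _ _)⟩
  set cf : ℕ → ℕ → ℝ → ℝ :=
    fun i n t => (Dt^[i] (Dx^[n] f)) (p.1 + cl t, p.2) / n.factorial with hcf
  have hcont : ∀ i n, Continuous (cf i n) := fun i n => by
    refine Continuous.div_const ?_ _
    exact (contDiffOn_Dt_iterate hO (contDiffOn_Dx_iterate hO hf n) i).continuousOn.comp_continuous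
      (by fun_prop) fun t => (hline _ (hcl_abs t)).1
  have hgeo : ∀ i ≤ 2, Geo (cf i) T (1 / R1) := by
    intro i hi
    refine ⟨|C|, fun n t _ => ?_⟩
    rw [hcf, abs_div, Nat.abs_cast, one_div, inv_pow, ← div_eq_mul_inv, div_div,
      div_le_iff₀ (by positivity)]
    exact (hb' _ (hline _ (hcl_abs t)).2 i hi n).trans (le_of_eq (by ring))
  have hder : ∀ i n t, t ∈ Ioo (-T) T → HasDerivAt (cf i n) (cf (i + 1) n t) t := by
    intro i n t ht
    have hti : |t| ≤ T := abs_le.2 ⟨ht.1.le, ht.2.le⟩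
    have h := (hasDerivAt_slice hO (contDiffOn_Dt_iterate hO (contDiffOn_Dx_iterate hO hf n) i)
      (hline t hti).1).2
    have h2 : HasDerivAt (fun s => (Dt^[i] (Dx^[n] f)) (p.1 + s, p.2))
        (Dt (Dt^[i] (Dx^[n] f)) (p.1 + t, p.2)) t :=
      HasDerivAt.comp_const_add p.1 t h
    refine ((h2.div_const (n.factorial : ℝ)).congr_of_eventuallyEq ?_).congr_deriv ?_
    · filter_upwards [isOpen_Ioo.mem_nhds ht] with s hs
      rw [hcf]
      simp only [hcl_eq s hs]
    · simp only [hcf, Function.iterate_succ_apply', hcl_eq t ht]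
  refine ⟨T, min T (1 / R1), hT0, by positivity,
    { c0 := cf 0, c1 := cf 1, c2 := cf 2
      cont0 := hcont 0, cont1 := hcont 1, cont2 := hcont 2
      geo0 := (hgeo 0 (by norm_num)).mono (by positivity) (min_le_right _ _)
      geo1 := (hgeo 1 (by norm_num)).mono (by positivity) (min_le_right _ _)
      geo2 := (hgeo 2 le_rfl).mono (by positivity) (min_le_right _ _)
      deriv0 := hder 0, deriv1 := hder 1 }, fun q hq => ?_⟩
  obtain ⟨h1, h2⟩ := mem_box.1 hq
  have hq1 := hdist q h1.le (h2.le.trans (min_le_left _ _))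
  refine ⟨hball (mem_ball.2 (hq1.trans_le (min_le_right _ _))), ?_⟩
  have hin : ∀ y ∈ Ioo (-T) T,
      (p.1 + q.1, p.2 + y) ∈ O ∧ dist ((p.1 + q.1, p.2 + y) : ℝ × ℝ) p < δ := fun y hy => by
    have h : dist ((p.1 + q.1, p.2 + y) : ℝ × ℝ) p < min δ ε :=
      hdist (q.1, y) h1.le (abs_le.2 ⟨hy.1.le, hy.2.le⟩)
    exact ⟨hball (mem_ball.2 (h.trans_le (min_le_right _ _))), h.trans_le (min_le_left _ _)⟩
  set f1 : ℝ × ℝ → ℝ := fun z => f (z.1, z.2) with hf1
  set h : ℝ → ℝ := fun y => f (p.1 + q.1, p.2 + y) with hh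
  have hsm : ContDiffOn ℝ ∞ h (Ioo (-T) T) :=
    hf.comp (contDiffOn_const.prodMk (contDiffOn_const.add contDiffOn_id)) fun y hy => (hin y hy).1
  have hder' : ∀ n : ℕ, ∀ y ∈ Ioo (-T) T,
      iteratedDeriv n h y = Dx^[n] f (p.1 + q.1, p.2 + y) := by
    intro n y hy
    have e := congrFun (iteratedDeriv_comp_const_add n (fun y => f (p.1 + q.1, y)) p.2) y
    rw [hh, e]
    exact iteratedDeriv_slice hO hf _ n _ (hin y hy).1
  have hsum := hasSum_taylor (C := |C|) (R := R1) hsm (fun y hy n => by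
      rw [hder' n y hy]
      simpa using hb' _ (hin y hy).2 0 (by norm_num) n)
    (h2.trans_le (min_le_left _ _))
    (by
      have := h2.trans_le (min_le_right _ _)
      rw [lt_div_iff₀ hR10] at this
      linarith) hR10.le
  show f (p.1 + q.1, p.2 + q.2) = ev (cf 0) q
  rw [← show h q.2 = f (p.1 + q.1, p.2 + q.2) from rfl, ← hsum.tsum_eq, ev]
  refine tsum_congr fun n => ?_
  rw [hder' n 0 ⟨by linarith, hT0⟩, add_zero, hcf]
  simp only [hcl_eq q.1 ⟨by linarith [(abs_lt.1 h1).1], (abs_lt.1 h1).2⟩]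
  simp

/-- A Taylor series gives an analytic function. -/
lemma analyticAt_ev {c : ℕ → ℝ → ℝ} {T R : ℝ} (h : Geo c T R) (hT : 0 ≤ T) (hR : 0 < R) :
    AnalyticAt ℝ (fun x => ev c (0, x)) 0 := by
  refine ⟨FormalMultilinearSeries.ofScalars ℝ fun n => c n 0, hasFPowerSeriesAt_iff.2 ?_⟩
  filter_upwards [Metric.ball_mem_nhds (0 : ℝ) hR] with z hz
  rw [mem_ball_zero_iff, Real.norm_eq_abs] at hz
  have hs := h.summable hR (t := 0) (by simpa using hT) hz
  simp only [zero_add, FormalMultilinearSeries.coeff_ofScalars, smul_eq_mul, ev]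
  simp only [mul_comm (z ^ _)]
  exact hs.hasSum

/-- An analytic function is a Taylor series. -/
lemma exists_seq_of_analytic {f : ℝ → ℝ} (hf : AnalyticAt ℝ f 0) :
    ∃ R : ℝ, 0 < R ∧ ∃ a : ℕ → ℝ, (∃ M, ∀ n, |a n| * R ^ n ≤ M) ∧
      ∀ x, |x| < R → f x = ∑' n, a n * x ^ n := by
  obtain ⟨p, hp⟩ := hf
  obtain ⟨r0, hr0, hrlt⟩ := ENNReal.lt_iff_exists_nnreal_btwn.1 hp.radius_pos
  obtain ⟨C, -, hC⟩ := p.norm_mul_pow_le_of_lt_radius hrlt
  obtain ⟨e, he, hball⟩ := Metric.eventually_nhds_iff.1 (hasFPowerSeriesAt_iff.1 hp)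
  have hr : (0 : ℝ) < r0 := NNReal.coe_pos.2 (by exact_mod_cast hr0)
  refine ⟨min e r0, lt_min he hr, p.coeff, ⟨C, fun n => ?_⟩, fun x hx => ?_⟩
  · refine le_trans ?_ (hC n)
    rw [FormalMultilinearSeries.norm_apply_eq_norm_coef, Real.norm_eq_abs]
    exact mul_le_mul_of_nonneg_left
      (pow_le_pow_left₀ (le_min he.le hr.le) (min_le_right _ _) n) (abs_nonneg _)
  · have h := hball (y := x) (by rw [dist_zero_right]; exact hx.trans_le (min_le_left _ _))
    simp only [zero_add, smul_eq_mul, mul_comm (x ^ _)] at h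
    exact h.tsum_eq.symm

variable {P : Par}

/-- The element with given coefficient functions. -/
abbrev elem (P : Par) (c : ℕ → ℝ → ℝ) : Sp P := mkSp P c

/-- The constant element. -/
def constS (P : Par) (r : ℝ) : Sp P := mkSp P fun n _ => if n = 0 then r else 0

lemma adm_constS (P : Par) (r : ℝ) :
    Adm P (fun n _ => if n = 0 then r else 0) (fun n => if n = 0 then |r| else 0) where
  cont _ := continuous_const
  bound n t ht := by rcases n with _ | n <;> simp
  sum := summable_of_ne_finset_zero (s := {0}) fun n hn => if_neg (by simpa using hn)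

lemma norm_constS_le (P : Par) (r : ℝ) : ‖constS P r‖ ≤ |r| :=
  (adm_constS P r).norm_mkSp_le.trans (le_of_eq (by rw [tsum_ite_eq]))

lemma coef_constS (P : Par) (r : ℝ) (n : ℕ) {t : ℝ} (ht : |t| ≤ P.T) :
    coef (constS P r) n t = if n = 0 then r else 0 := (adm_constS P r).coef_mkSp n ht

lemma evS_constS (P : Par) (r : ℝ) {q : ℝ × ℝ} (hq : q ∈ box P.T (P.ρ / 2)) :
    evS (constS P r) q = r := by
  unfold evS ev
  rw [tsum_congr fun n => by rw [coef_constS P r n (mem_box.1 hq).1.le], tsum_eq_single 0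
    fun n hn => by simp [hn]]
  simp

lemma constS_smul' (r : ℝ) (a : Sp P) : smul' (constS P r) a = r • a := by
  refine Sp.ext_coef fun n t ht => ?_
  rw [smul', (adm_smul' _ _).coef_mkSp n ht, coef_smul, Finset.sum_eq_single 0]
  · simp [coef_constS P r 0 ht]
  · intro k _ hk
    simp [coef_constS P r k ht, hk]
  · simp

lemma abs_evS_le (a : Sp P) {q : ℝ × ℝ} (hq : q ∈ box P.T (P.ρ / 2)) : |evS a q| ≤ ‖a‖ := by
  obtain ⟨h1, h2⟩ := mem_box.1 hq
  rw [evS, ev, Sp.norm_eq, ← Real.norm_eq_abs]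
  refine (norm_tsum_le_tsum_norm (summable_evS a hq)).trans
    ((summable_evS a hq).tsum_le_tsum (fun n => ?_) a.summable)
  rw [Real.norm_eq_abs, abs_mul, abs_pow]
  exact le_trans (mul_le_mul_of_nonneg_left (pow_le_pow_left₀ (abs_nonneg _)
    (h2.le.trans (P.half_le_rad h1.le)) n) (abs_nonneg _)) (abs_coef_mul_le a n h1.le)

lemma adm_of_bound {c : ℕ → ℝ → ℝ} (hc : ∀ n, Continuous (c n)) {M R : ℝ}
    (hM : ∀ n t, |t| ≤ P.T → |c n t| * R ^ n ≤ M) (hρ : P.ρ < R) :
    Adm P c (fun n => max M 0 * (P.ρ / R) ^ n) where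
  cont := hc
  bound n t ht := by
    have hR : 0 < R := P.hρ.trans hρ
    rw [div_pow, ← mul_div_assoc, le_div_iff₀ (pow_pos hR n)]
    calc |c n t| * P.rad t ^ n * R ^ n = |c n t| * R ^ n * P.rad t ^ n := by ring
      _ ≤ max M 0 * P.ρ ^ n := mul_le_mul ((hM n t ht).trans (le_max_left _ _))
          (pow_le_pow_left₀ (P.rad_pos ht).le (P.rad_le t) n)
          (pow_nonneg (P.rad_pos ht).le n) (le_max_right _ _)
  sum := (summable_geometric_of_lt_one (by have := P.hρ; have := P.hρ.trans hρ; positivity)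
    ((div_lt_one (P.hρ.trans hρ)).2 hρ)).mul_left _

lemma coef_elem {c : ℕ → ℝ → ℝ} (hc : ∀ n, Continuous (c n)) {R : ℝ} (hg : Geo c P.T R)
    (hρ : P.ρ < R) (n : ℕ) {t : ℝ} (ht : |t| ≤ P.T) : coef (elem P c) n t = c n t := by
  obtain ⟨M, hM⟩ := hg
  exact (adm_of_bound hc hM hρ).coef_mkSp n ht

lemma evS_elem {c : ℕ → ℝ → ℝ} (hc : ∀ n, Continuous (c n)) {R : ℝ} (hg : Geo c P.T R)
    (hρ : P.ρ < R) {q : ℝ × ℝ} (hq : |q.1| ≤ P.T) : evS (elem P c) q = ev c q :=
  tsum_congr fun n => by rw [coef_elem hc hg hρ n hq]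

/-- Closeness to a constant element. -/
lemma norm_elem_sub_constS_le {c : ℕ → ℝ → ℝ} (hc : ∀ n, Continuous (c n)) {M R r e : ℝ}
    (hM : ∀ n t, |t| ≤ P.T → |c n t| * R ^ n ≤ M) (hρ : 2 * P.ρ ≤ R)
    (he : ∀ t, |t| ≤ P.T → |c 0 t - r| ≤ e) :
    ‖elem P c - constS P r‖ ≤ e + 2 * max M 0 * (P.ρ / R) := by
  have hρ' : P.ρ < R := by linarith [P.hρ]
  have hR : 0 < R := P.hρ.trans hρ'
  have hg : Geo c P.T R := ⟨M, hM⟩
  set u : ℕ → ℝ := fun n => if n = 0 then e else max M 0 * (P.ρ / R) ^ n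
  have hgeom : Summable fun n : ℕ => max M 0 * (P.ρ / R) ^ n := (adm_of_bound hc hM hρ').sum
  have hu : Summable u := (summable_nat_add_iff 1).1 (by
    simpa [u] using (summable_nat_add_iff 1).2 hgeom)
  refine (Sp.norm_le hu fun n => (ContinuousMap.norm_le _ ?_).2 fun t => ?_).trans ?_
  · rcases n with _ | n
    · simpa [u] using le_trans (abs_nonneg _) (he 0 (by simpa using P.hT.le))
    · have := P.hρ
      simp only [u, Nat.succ_ne_zero, if_false]
      positivity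
  · have ht := P.abs_le t
    rw [apply_eq_coef, coef_sub, coef_elem hc hg hρ' n ht, coef_constS P r n ht, Real.norm_eq_abs,
      abs_mul, abs_pow, abs_of_pos (P.rad_pos ht)]
    rcases n with _ | n
    · simpa [u] using he _ ht
    · simpa [u] using (adm_of_bound hc hM hρ').bound (n + 1) _ ht
  · rw [hu.tsum_eq_zero_add]
    have hlt : P.ρ / R ≤ 1 / 2 := by rw [div_le_iff₀ hR]; linarith
    have hx0 : 0 ≤ P.ρ / R := by have := P.hρ; positivity
    simp only [u, if_true, Nat.succ_ne_zero, if_false, pow_succ, ← mul_assoc, tsum_mul_right,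
      tsum_mul_left, tsum_geometric_of_lt_one hx0 (by linarith)]
    refine add_le_add le_rfl (mul_le_mul_of_nonneg_right ?_ hx0)
    rw [mul_comm 2]
    refine mul_le_mul_of_nonneg_left ?_ (le_max_right _ _)
    rw [inv_le_comm₀ (by linarith) (by norm_num)]
    linarith

end Vale.Agent.P229
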