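import Mathlib
import Vale.Agent.P229.Coeff

/-!
Initial data on the line `t = 0`: a curve of speed `√g22` with large curvature and, along it, the
transversal derivative prescribed by the metric.
-/

noncomputable section

open Set Filter Metric
open scoped Topology ContDiff

namespace Vale.Agent.P229

/-- A sequence as coefficient functions constant in time. -/
def cst (a : ℕ → ℝ) (n : ℕ) (_ : ℝ) : ℝ := a n

lemma continuous_cst (a : ℕ → ℝ) (n : ℕ) : Continuous (cst a n) := continuous_const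

lemma geo_cst {a : ℕ → ℝ} {R : ℝ} (h : ∃ M, ∀ n, |a n| * R ^ n ≤ M) (T : ℝ) : Geo (cst a) T R := by
  obtain ⟨M, hM⟩ := h
  exact ⟨M, fun n t _ => hM n⟩

/-- Differentiation in the second variable needs no regularity in time. -/
lemma hasDerivAt_ev_snd {c : ℕ → ℝ → ℝ} {T R : ℝ} (h : Geo c T R) {t x : ℝ} (ht : |t| ≤ T)
    (hx : |x| < R) : HasDerivAt (fun y => ev c (t, y)) (ev (dX c) (t, x)) x := by
  obtain ⟨M, hM⟩ := h
  have hg : Geo (cst fun n => c n t) 1 R := geo_cst ⟨M, fun n => hM n t ht⟩ 1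
  have h0 : Geo (fun _ _ => (0 : ℝ)) 1 R := ⟨0, fun n s _ => by simp⟩
  have hd := hasFDerivAt_ev hg h0 (fun n s _ => hasDerivAt_const s (c n t))
    (q := (0, x)) (mem_box.2 ⟨by simp, hx⟩)
  have h2 := hd.comp_hasDerivAt x ((hasDerivAt_const x (0 : ℝ)).prodMk (hasDerivAt_id x))
  refine (h2.congr_deriv ?_).congr_of_eventuallyEq (Filter.Eventually.of_forall fun y => rfl)
  simp [ev, dX, cst]

/-- The moving frame of a plane circle. -/
def frame (k x : ℝ) (c : Fin 3 → ℝ) : Fin 3 → ℝ :=
  ![c 0 * Real.cos (k * x) - c 1 * Real.sin (k * x),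
    c 0 * Real.sin (k * x) + c 1 * Real.cos (k * x), c 2]

lemma frame_dot (k x : ℝ) (c d : Fin 3 → ℝ) :
    ∑ i, frame k x c i * frame k x d i = c 0 * d 0 + c 1 * d 1 + c 2 * d 2 := by
  simp only [frame, Fin.sum_univ_three, Matrix.cons_val_zero, Matrix.cons_val_one,
    Matrix.cons_val_two, Matrix.tail_cons, Matrix.head_cons]
  linear_combination (c 0 * d 0 + c 1 * d 1) * Real.sin_sq_add_cos_sq (k * x)

lemma analyticAt_frame {c : ℝ → Fin 3 → ℝ} (hc : ∀ i, AnalyticAt ℝ (fun x => c x i) 0) (k : ℝ)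
    (i : Fin 3) : AnalyticAt ℝ (fun x => frame k x (c x) i) 0 := by
  have hl : AnalyticAt ℝ (fun x : ℝ => k * x) 0 := analyticAt_const.mul analyticAt_id
  have hcos : AnalyticAt ℝ (fun x : ℝ => Real.cos (k * x)) 0 := Real.analyticAt_cos.comp hl
  have hsin : AnalyticAt ℝ (fun x : ℝ => Real.sin (k * x)) 0 := Real.analyticAt_sin.comp hl
  fin_cases i
  · exact ((hc 0).mul hcos).sub ((hc 1).mul hsin)
  · exact ((hc 0).mul hsin).add ((hc 1).mul hcos)
  · exact hc 2

lemma hasDerivAt_frame_speed {s : ℝ → ℝ} {x s' k : ℝ} (hs : HasDerivAt s s' x) (i : Fin 3) :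
    HasDerivAt (fun y => frame k y ![s y, 0, 0] i) (frame k x ![s', s x * k, 0] i) x := by
  have hl : HasDerivAt (fun y : ℝ => k * y) k x := by simpa using (hasDerivAt_id x).const_mul k
  fin_cases i
  · simp only [frame, Fin.zero_eta, Matrix.cons_val_zero, Matrix.cons_val_one, zero_mul, sub_zero]
    exact (hs.mul hl.cos).congr_deriv (by ring)
  · simp only [frame, Fin.mk_one, Matrix.cons_val_zero, Matrix.cons_val_one, zero_mul, add_zero]
    exact (hs.mul hl.sin).congr_deriv (by ring)
  · simp only [frame, Fin.reduceFinMk, Matrix.cons_val_two, Matrix.tail_cons, Matrix.head_cons]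
    exact hasDerivAt_const x 0

/-- The initial data along `t = 0`. -/
structure Data {T R : ℝ} (A B C : Jet T R) where
  R' : ℝ
  hR' : 0 < R'
  hle : R' ≤ R
  U : Fin 3 → ℕ → ℝ
  V : Fin 3 → ℕ → ℝ
  F0 : Fin 3 → ℕ → ℝ
  geoU : ∀ i S, Geo (cst (U i)) S R'
  geoV : ∀ i S, Geo (cst (V i)) S R'
  geoF0 : ∀ i S, Geo (cst (F0 i)) S R'
  dF0 : ∀ i n t, dX (cst (F0 i)) n t = cst (V i) n t
  eq11 : ∀ x, |x| < R' →
    ∑ i, ev (cst (U i)) (0, x) * ev (cst (U i)) (0, x) = ev A.c0 (0, x)
  eq12 : ∀ x, |x| < R' →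
    ∑ i, ev (cst (U i)) (0, x) * ev (cst (V i)) (0, x) = ev B.c0 (0, x)
  eq22 : ∀ x, |x| < R' →
    ∑ i, ev (cst (V i)) (0, x) * ev (cst (V i)) (0, x) = ev C.c0 (0, x)
  eqd : ∀ x, |x| < R' →
    ∑ i, ev (cst (V i)) (0, x) * ev (dX (cst (U i))) (0, x) = ev C.c1 (0, x) / 2
  det_ne : (Matrix.of ![fun i => ev (cst (U i)) (0, 0), fun i => ev (cst (V i)) (0, 0),
    fun i => ev (dX (cst (V i))) (0, 0)]).det ≠ 0

lemma exists_coeffs {f : Fin 3 → ℝ → ℝ} (hf : ∀ i, AnalyticAt ℝ (f i) 0) :
    ∃ R : ℝ, 0 < R ∧ ∃ a : Fin 3 → ℕ → ℝ, (∀ i, ∃ M, ∀ n, |a i n| * R ^ n ≤ M) ∧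
      ∀ i x, |x| < R → f i x = ev (cst (a i)) (0, x) := by
  choose R hR a ha hsum using fun i => exists_seq_of_analytic (hf i)
  refine ⟨min (R 0) (min (R 1) (R 2)), lt_min (hR 0) (lt_min (hR 1) (hR 2)), a, fun i => ?_,
    fun i x hx => ?_⟩
  · obtain ⟨M, hM⟩ := ha i
    refine ⟨M, fun n => le_trans (mul_le_mul_of_nonneg_left (pow_le_pow_left₀
      (le_min (hR 0).le (le_min (hR 1).le (hR 2).le)) ?_ n) (abs_nonneg _)) (hM n)⟩
    fin_cases i
    · exact min_le_left _ _
    · exact (min_le_right _ _).trans (min_le_left _ _)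
    · exact (min_le_right _ _).trans (min_le_right _ _)
  · refine hsum i x (hx.trans_le ?_)
    fin_cases i
    · exact min_le_left _ _
    · exact (min_le_right _ _).trans (min_le_left _ _)
    · exact (min_le_right _ _).trans (min_le_right _ _)

theorem exists_data {T R : ℝ} (hT : 0 < T) (hR : 0 < R) (A B C : Jet T R)
    (ha : 0 < ev C.c0 (0, 0)) (hdet : ev B.c0 (0, 0) ^ 2 < ev A.c0 (0, 0) * ev C.c0 (0, 0)) :
    Nonempty (Data A B C) := by
  set a := fun x => ev C.c0 (0, x) with had
  set b := fun x => ev B.c0 (0, x) with hbd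
  set e := fun x => ev A.c0 (0, x) with hed
  have hAa : AnalyticAt ℝ a 0 := analyticAt_ev C.geo0 hT.le hR
  have hAb : AnalyticAt ℝ b 0 := analyticAt_ev B.geo0 hT.le hR
  have hAe : AnalyticAt ℝ e 0 := analyticAt_ev A.geo0 hT.le hR
  have hA1 : AnalyticAt ℝ (fun x => ev C.c1 (0, x)) 0 := analyticAt_ev C.geo1 hT.le hR
  set s := fun x => Real.exp (Real.log (a x) / 2) with hsd
  have hAs : AnalyticAt ℝ s 0 := ((hAa.log ha).div analyticAt_const two_ne_zero).rexp'
  have hspos : ∀ x, 0 < s x := fun x => Real.exp_pos _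
  have hs2 : ∀ x, 0 < a x → s x * s x = a x := fun x hx => by
    rw [hsd]; simp only
    rw [← Real.exp_add, add_halves, Real.exp_log hx]
  set al := fun x => b x / s x with hald
  have hAal : AnalyticAt ℝ al 0 := hAb.div hAs (hspos 0).ne'
  set kf := fun x => deriv b x - ev C.c1 (0, x) / 2 with hkd
  have hAk : AnalyticAt ℝ kf 0 := hAb.deriv.sub (hA1.div analyticAt_const two_ne_zero)
  set D := e 0 - al 0 ^ 2 with hD
  have hDpos : 0 < D := by
    have h1 : al 0 ^ 2 = b 0 ^ 2 / a 0 := by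
      rw [hald]; simp only
      rw [div_pow, sq (s 0), hs2 0 ha]
    rw [hD, h1, sub_pos, div_lt_iff₀ ha]
    exact hdet
  set K := (kf 0 - deriv s 0 * al 0) / s 0 with hK
  set k := |K| / Real.sqrt D + 1 with hk
  have hk0 : 0 < k := by positivity
  set be := fun x => (kf x - deriv s x * al x) / (s x * k) with hbed
  have hAbe : AnalyticAt ℝ be 0 :=
    (hAk.sub (hAs.deriv.mul hAal)).div (hAs.mul analyticAt_const)
      (mul_ne_zero (hspos 0).ne' hk0.ne')
  have hbe0 : be 0 ^ 2 < D := by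
    have h1 : be 0 = K / k := by rw [hbed, hK]; simp only; rw [div_div]
    rw [h1, div_pow, div_lt_iff₀ (by positivity)]
    have h2 : |K| < Real.sqrt D * k := by
      rw [hk, mul_add, mul_div_cancel₀ _ (Real.sqrt_pos.2 hDpos).ne', mul_one]
      linarith [Real.sqrt_pos.2 hDpos]
    calc K ^ 2 = |K| ^ 2 := (sq_abs K).symm
      _ < (Real.sqrt D * k) ^ 2 := pow_lt_pow_left₀ h2 (abs_nonneg _) two_ne_zero
      _ = D * k ^ 2 := by rw [mul_pow, Real.sq_sqrt hDpos.le]
  set q := fun x => e x - al x ^ 2 - be x ^ 2 with hqd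
  have hq0 : 0 < q 0 := by rw [hqd]; simp only; rw [hD] at hbe0; linarith
  have hAq : AnalyticAt ℝ q 0 := (hAe.sub (hAal.pow 2)).sub (hAbe.pow 2)
  set ga := fun x => Real.exp (Real.log (q x) / 2) with hgad
  have hAga : AnalyticAt ℝ ga 0 := ((hAq.log hq0).div analyticAt_const two_ne_zero).rexp'
  set u : Fin 3 → ℝ → ℝ := fun i x => frame k x ![al x, be x, ga x] i with hud
  set v : Fin 3 → ℝ → ℝ := fun i x => frame k x ![s x, 0, 0] i with hvd
  have hAu : ∀ i, AnalyticAt ℝ (u i) 0 := fun i =>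
    analyticAt_frame (fun j => by fin_cases j <;> assumption) k i
  have hAv : ∀ i, AnalyticAt ℝ (v i) 0 := fun i =>
    analyticAt_frame (fun j => by
      fin_cases j
      · exact hAs
      · exact analyticAt_const
      · exact analyticAt_const) k i
  obtain ⟨Ru, hRu, U, hU, hUe⟩ := exists_coeffs hAu
  obtain ⟨Rv, hRv, V, hV, hVe⟩ := exists_coeffs hAv
  obtain ⟨d, hd, hnear⟩ := Metric.eventually_nhds_iff.1
    ((hAa.continuousAt.eventually_const_lt ha).and ((hAq.continuousAt.eventually_const_lt hq0).and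
      (hAs.eventually_analyticAt.and (hAb.eventually_analyticAt.and
        ((hAu 0).eventually_analyticAt.and ((hAu 1).eventually_analyticAt.and
          (hAu 2).eventually_analyticAt))))))
  set R' := min (min R d) (min Ru Rv) with hR'd
  have hR' : 0 < R' := lt_min (lt_min hR hd) (lt_min hRu hRv)
  have hrR : R' ≤ R := (min_le_left _ _).trans (min_le_left _ _)
  have hrd : R' ≤ d := (min_le_left _ _).trans (min_le_right _ _)
  have hru : R' ≤ Ru := (min_le_right _ _).trans (min_le_left _ _)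
  have hrv : R' ≤ Rv := (min_le_right _ _).trans (min_le_right _ _)
  have gU : ∀ i S, Geo (cst (U i)) S R' := fun i S => (geo_cst (hU i) S).mono hR'.le hru
  have gV : ∀ i S, Geo (cst (V i)) S R' := fun i S => (geo_cst (hV i) S).mono hR'.le hrv
  have dv : ∀ i x, |x| < R' →
      ev (dX (cst (V i))) (0, x) = frame k x ![deriv s x, s x * k, 0] i := by
    intro i x hx
    obtain ⟨-, -, hsx, -⟩ := hnear (y := x) (by rw [dist_zero_right]; exact hx.trans_le hrd)
    have h1 := hasDerivAt_ev_snd (gV i 1) (t := 0) (by simp) hx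
    refine h1.unique ((hasDerivAt_frame_speed (k := k) hsx.differentiableAt.hasDerivAt i).congr_of_eventuallyEq ?_)
    filter_upwards [(isOpen_lt continuous_abs continuous_const).mem_nhds
      (show x ∈ {y : ℝ | |y| < R'} from hx)] with y hy
    exact (hVe i y (hy.trans_le hrv)).symm
  refine ⟨{ R' := R', hR' := hR', hle := hrR, U := U, V := V
            F0 := fun i n => if n = 0 then 0 else V i (n - 1) / n
            geoU := gU, geoV := gV
            geoF0 := fun i S => ?_, dF0 := fun i n t => ?_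
            eq11 := fun x hx => ?_, eq12 := fun x hx => ?_, eq22 := fun x hx => ?_
            eqd := fun x hx => ?_, det_ne := ?_ }⟩
  · obtain ⟨M, hM⟩ := gV i S
    refine ⟨max M 0 * R', fun n t ht => ?_⟩
    rcases n with _ | n
    · simp only [cst, if_true, abs_zero, zero_mul]; positivity
    · simp only [cst, Nat.succ_ne_zero, if_false, Nat.add_sub_cancel]
      rw [abs_div, Nat.abs_cast, pow_succ, ← mul_assoc]
      refine mul_le_mul_of_nonneg_right (le_trans (mul_le_mul_of_nonneg_right (div_le_self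
        (abs_nonneg _) (Nat.one_le_cast.2 n.succ_pos)) (by positivity)) ?_) hR'.le
      exact (hM n t ht).trans (le_max_left _ _)
  · simp only [dX, cst, Nat.succ_ne_zero, if_false, Nat.add_sub_cancel]
    push_cast
    field_simp
  · obtain ⟨-, hqx, -⟩ := hnear (y := x) (by rw [dist_zero_right]; exact hx.trans_le hrd)
    simp only [← fun i => hUe i x (hx.trans_le hru), hud, frame_dot]
    simp only [Matrix.cons_val_zero, Matrix.cons_val_one, Matrix.cons_val_two, Matrix.tail_cons,
      Matrix.head_cons]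
    have : ga x * ga x = q x := by
      rw [hgad]; simp only
      rw [← Real.exp_add, add_halves, Real.exp_log hqx]
    rw [this, hqd]
    simp only [hed]
    ring
  · simp only [← fun i => hUe i x (hx.trans_le hru), ← fun i => hVe i x (hx.trans_le hrv), hud,
      hvd, frame_dot]
    simp [hald, hbd, div_mul_cancel₀ _ (hspos x).ne']
  · obtain ⟨hax, -⟩ := hnear (y := x) (by rw [dist_zero_right]; exact hx.trans_le hrd)
    simp only [← fun i => hVe i x (hx.trans_le hrv), hvd, frame_dot]
    simpa using hs2 x hax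
  · obtain ⟨-, -, -, hbx, hu0, hu1, hu2⟩ :=
      hnear (y := x) (by rw [dist_zero_right]; exact hx.trans_le hrd)
    have hui : ∀ i, AnalyticAt ℝ (u i) x := fun i => by fin_cases i <;> assumption
    have hopen := (isOpen_lt continuous_abs continuous_const).mem_nhds
      (show x ∈ {y : ℝ | |y| < R'} from hx)
    have hd1 : HasDerivAt (fun y => ∑ i, ev (cst (U i)) (0, y) * ev (cst (V i)) (0, y))
        (∑ i, (ev (dX (cst (U i))) (0, x) * ev (cst (V i)) (0, x) +
          ev (cst (U i)) (0, x) * ev (dX (cst (V i))) (0, x))) x :=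
      HasDerivAt.fun_sum fun i _ => (hasDerivAt_ev_snd (gU i 1) (by simp) hx).fun_mul
        (hasDerivAt_ev_snd (gV i 1) (by simp) hx)
    have hd2 : HasDerivAt (fun y => ∑ i, ev (cst (U i)) (0, y) * ev (cst (V i)) (0, y))
        (deriv b x) x := by
      refine hbx.differentiableAt.hasDerivAt.congr_of_eventuallyEq ?_
      filter_upwards [hopen] with y hy
      simp only [← fun i => hUe i y (hy.trans_le hru), ← fun i => hVe i y (hy.trans_le hrv), hud,
        hvd, frame_dot]
      simp [hald, div_mul_cancel₀ _ (hspos y).ne']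
    have h3 : ∑ i, ev (cst (U i)) (0, x) * ev (dX (cst (V i))) (0, x) = kf x := by
      simp only [← fun i => hUe i x (hx.trans_le hru), dv _ x hx, hud, frame_dot]
      simp only [Matrix.cons_val_zero, Matrix.cons_val_one, Matrix.cons_val_two, Matrix.tail_cons,
        Matrix.head_cons, hbed]
      field_simp [(hspos x).ne']
      ring
    have h4 := hd1.unique hd2
    rw [Finset.sum_add_distrib, h3, hkd] at h4
    simp only [mul_comm (ev (cst (V _)) (0, x))]
    linarith
  · have e1 : (fun i => ev (cst (U i)) (0, (0:ℝ))) = ![al 0, be 0, ga 0] := funext fun i => by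
      rw [← hUe i 0 (by simpa using hRu), hud]; fin_cases i <;> simp [frame]
    have e2 : (fun i => ev (cst (V i)) (0, (0:ℝ))) = ![s 0, 0, 0] := funext fun i => by
      rw [← hVe i 0 (by simpa using hRv), hvd]; fin_cases i <;> simp [frame]
    have e3 : (fun i => ev (dX (cst (V i))) (0, (0:ℝ))) = ![deriv s 0, s 0 * k, 0] :=
      funext fun i => by rw [dv i 0 (by simpa using hR')]; fin_cases i <;> simp [frame]
    rw [e1, e2, e3, Matrix.det_fin_three]
    simp [(hspos 0).ne', hk0.ne', (Real.exp_pos (Real.log (q 0) / 2)).ne', hgad]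

end Vale.Agent.P229
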