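import Mathlib
import Vale.Agent.P229.Series

/-!
Functions all of whose derivatives in the second variable are `C^k`; this class is closed under
composition with smooth maps and is the one in which the bootstrap runs.
-/

noncomputable section

open Set Filter Metric
open scoped Topology ContDiff

namespace Vale.Agent.P229

variable {E E' F : Type} [NormedAddCommGroup E] [NormedSpace ℝ E] [NormedAddCommGroup E']
  [NormedSpace ℝ E'] [NormedAddCommGroup F] [NormedSpace ℝ F]

/-- The derivative along the second variable, as a derivative of one variable. -/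
def dx (f : ℝ × ℝ → E) (q : ℝ × ℝ) : E := deriv (fun x => f (q.1, x)) q.2

lemma slice_eventually {B : Set (ℝ × ℝ)} (hB : IsOpen B) {q : ℝ × ℝ} (hq : q ∈ B) :
    ∀ᶠ x in 𝓝 q.2, (q.1, x) ∈ B :=
  (Continuous.prodMk_right q.1).continuousAt.eventually_mem (hB.mem_nhds hq)

lemma dx_congr {B : Set (ℝ × ℝ)} (hB : IsOpen B) {f g : ℝ × ℝ → E} (h : EqOn f g B) :
    EqOn (dx f) (dx g) B := fun q hq =>
  Filter.EventuallyEq.deriv_eq ((slice_eventually hB hq).mono fun _ hx => h hx)

lemma iter_dx_congr {B : Set (ℝ × ℝ)} (hB : IsOpen B) {f g : ℝ × ℝ → E} (h : EqOn f g B) :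
    ∀ j, EqOn (dx^[j] f) (dx^[j] g) B
  | 0 => h
  | j + 1 => by
    simp only [Function.iterate_succ_apply']
    exact dx_congr hB (iter_dx_congr hB h j)

/-- All derivatives in the second variable exist and are `C^k`. -/
def InX (B : Set (ℝ × ℝ)) (k : ℕ) (f : ℝ × ℝ → E) : Prop :=
  ∀ j : ℕ, ContDiffOn ℝ k (dx^[j] f) B ∧
    ∀ q ∈ B, DifferentiableAt ℝ (fun x => (dx^[j] f) (q.1, x)) q.2

lemma InX.congr {B : Set (ℝ × ℝ)} (hB : IsOpen B) {k : ℕ} {f g : ℝ × ℝ → E} (hf : InX B k f)
    (h : EqOn g f B) : InX B k g := fun j =>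
  ⟨(hf j).1.congr (iter_dx_congr hB h j), fun q hq =>
    ((hf j).2 q hq).congr_of_eventuallyEq
      ((slice_eventually hB hq).mono fun _ hx => iter_dx_congr hB h j hx)⟩

lemma InX.dx {B : Set (ℝ × ℝ)} {k : ℕ} {f : ℝ × ℝ → E} (hf : InX B k f) :
    InX B k (P229.dx f) := fun j => by
  have := hf (j + 1)
  rwa [Function.iterate_succ_apply] at this

lemma dx_prodMk {B : Set (ℝ × ℝ)} {f : ℝ × ℝ → E} {g : ℝ × ℝ → F}
    (hf : ∀ q ∈ B, DifferentiableAt ℝ (fun x => f (q.1, x)) q.2)
    (hg : ∀ q ∈ B, DifferentiableAt ℝ (fun x => g (q.1, x)) q.2) :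
    EqOn (dx fun q => (f q, g q)) (fun q => (dx f q, dx g q)) B := fun q hq =>
  ((hf q hq).hasDerivAt.prodMk (hg q hq).hasDerivAt).deriv

lemma InX.prodMk {B : Set (ℝ × ℝ)} (hB : IsOpen B) {k : ℕ} {f : ℝ × ℝ → E} {g : ℝ × ℝ → F}
    (hf : InX B k f) (hg : InX B k g) : InX B k fun q => (f q, g q) := by
  have key : ∀ j, EqOn (P229.dx^[j] fun q => (f q, g q))
      (fun q => (P229.dx^[j] f q, P229.dx^[j] g q)) B := by
    intro j
    induction j with
    | zero => exact fun q _ => rfl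
    | succ j ih =>
      simp only [Function.iterate_succ_apply']
      exact (dx_congr hB ih).trans (dx_prodMk (hf j).2 (hg j).2)
  exact fun j => ⟨((hf j).1.prodMk (hg j).1).congr (key j), fun q hq =>
    (((hf j).2 q hq).prodMk ((hg j).2 q hq)).congr_of_eventuallyEq
      ((slice_eventually hB hq).mono fun _ hx => key j hx)⟩

/-- The class is closed under composition with smooth maps. -/
theorem InX.comp {B : Set (ℝ × ℝ)} (hB : IsOpen B) {k : ℕ} {Φ : E → F} {O : Set E}
    (hO : IsOpen O) (hΦ : ContDiffOn ℝ ∞ Φ O) {Y : ℝ × ℝ → E} (hY : InX B k Y)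
    (hmaps : MapsTo Y B O) : InX B k fun q => Φ (Y q) := by
  intro j
  induction j generalizing E with
  | zero =>
    refine ⟨(hΦ.of_le (mod_cast le_top)).comp (hY 0).1 hmaps, fun q hq => ?_⟩
    have h : DifferentiableAt ℝ Φ (Y (q.1, q.2)) :=
      ((hΦ.differentiableOn (by simp)) _ (hmaps hq)).differentiableAt (hO.mem_nhds (hmaps hq))
    exact DifferentiableAt.comp (g := Φ) (f := fun x => Y (q.1, x)) q.2 h ((hY 0).2 q hq)
  | succ j ih =>
    have hΦ' : ContDiffOn ℝ ∞ (fun y : E × E => fderiv ℝ Φ y.1 y.2) (O ×ˢ univ) :=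
      ((hΦ.fderiv_of_isOpen hO (by simp)).comp contDiff_fst.contDiffOn fun y hy => hy.1).clm_apply
        contDiff_snd.contDiffOn
    have heq : EqOn (P229.dx fun q => Φ (Y q))
        (fun q => fderiv ℝ Φ (Y q) (P229.dx Y q)) B := by
      intro q hq
      have h : DifferentiableAt ℝ Φ (Y q) :=
        ((hΦ.differentiableOn (by simp)) _ (hmaps hq)).differentiableAt (hO.mem_nhds (hmaps hq))
      exact (h.hasFDerivAt.comp_hasDerivAt q.2 ((hY 0).2 q hq).hasDerivAt).deriv
    obtain ⟨h1, h2⟩ := ih (hO.prod isOpen_univ) hΦ' (hY.prodMk hB hY.dx)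
      fun q hq => ⟨hmaps hq, mem_univ _⟩
    have he := iter_dx_congr hB heq j
    rw [Function.iterate_succ_apply]
    exact ⟨h1.congr he, fun q hq =>
      (h2 q hq).congr_of_eventuallyEq ((slice_eventually hB hq).mono fun _ hx => he hx)⟩

/-- A smooth function belongs to every class. -/
theorem InX.of_smooth {B : Set (ℝ × ℝ)} (hB : IsOpen B) {k : ℕ} {f : ℝ × ℝ → E}
    (hf : ContDiffOn ℝ ∞ f B) : InX B k f := by
  have heq : ∀ {g : ℝ × ℝ → E}, ContDiffOn ℝ ∞ g B →
      EqOn (P229.dx g) (fun q => fderiv ℝ g q ex1) B := fun hg q hq =>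
    (((hg.differentiableOn (by simp)) q hq).differentiableAt (hB.mem_nhds hq)).hasFDerivAt
      |>.comp_hasDerivAt q.2 ((hasDerivAt_const q.2 q.1).prodMk (hasDerivAt_id q.2)) |>.deriv
  have key : ∀ j, ContDiffOn ℝ ∞ (P229.dx^[j] f) B := by
    intro j
    induction j with
    | zero => exact hf
    | succ j ih =>
      rw [Function.iterate_succ_apply']
      exact (((ih.fderiv_of_isOpen hB (by simp)).clm_apply contDiffOn_const)).congr (heq ih)
  intro j
  refine ⟨(key j).of_le (mod_cast le_top), fun q hq => ?_⟩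
  exact DifferentiableAt.comp (g := P229.dx^[j] f) q.2
    (((key j).differentiableOn (by simp)) (q.1, q.2) hq |>.differentiableAt (hB.mem_nhds hq))
    ((differentiableAt_const q.1).prodMk differentiableAt_id)

/-- A function with `C^k` partial derivatives is `C^(k+1)`. -/
theorem contDiffOn_succ_of_partials {B : Set (ℝ × ℝ)} (hB : IsOpen B) {k : ℕ}
    {f a b : ℝ × ℝ → ℝ}
    (hd : ∀ q ∈ B, HasFDerivAt f (a q • ContinuousLinearMap.fst ℝ ℝ ℝ +
      b q • ContinuousLinearMap.snd ℝ ℝ ℝ) q)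
    (ha : ContDiffOn ℝ k a B) (hb : ContDiffOn ℝ k b B) :
    ContDiffOn ℝ (k + 1 : ℕ) f B := by
  rw [Nat.cast_add, Nat.cast_one, contDiffOn_succ_iff_fderiv_of_isOpen hB]
  refine ⟨fun q hq => (hd q hq).differentiableAt.differentiableWithinAt, by simp, ?_⟩
  exact ((ha.smul contDiffOn_const).add (hb.smul contDiffOn_const)).congr
    fun q hq => (hd q hq).fderiv

end Vale.Agent.P229
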