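import Mathlib
import Vale.Agent.P229.Smooth
import Vale.Agent.P229.Data

/-!
Series as members of the classes `InX`, and auxiliary facts on series.
-/

noncomputable section

open Set Filter Metric
open scoped Topology ContDiff

namespace Vale.Agent.P229

lemma ev_congr {c d : ℕ → ℝ → ℝ} {q : ℝ × ℝ} (h : ∀ n, c n q.1 = d n q.1) : ev c q = ev d q :=
  tsum_congr fun n => by rw [h n]

lemma ev_zero (c : ℕ → ℝ → ℝ) (t : ℝ) : ev c (t, 0) = c 0 t := by
  rw [ev, tsum_eq_single 0 fun n hn => by simp [hn]]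
  simp

lemma Geo.sub {c d : ℕ → ℝ → ℝ} {T R : ℝ} (hc : Geo c T R) (hd : Geo d T R) (hR : 0 ≤ R) :
    Geo (fun n t => c n t - d n t) T R := by
  obtain ⟨M, hM⟩ := hc
  obtain ⟨N, hN⟩ := hd
  refine ⟨M + N, fun n t ht => le_trans (mul_le_mul_of_nonneg_right (abs_sub _ _) (pow_nonneg hR n)) ?_⟩
  rw [add_mul]
  exact add_le_add (hM n t ht) (hN n t ht)

lemma Geo.half {c : ℕ → ℝ → ℝ} {T R : ℝ} (hc : Geo c T R) (hR : 0 ≤ R) :
    Geo (fun n t => c n t / 2) T R := by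
  obtain ⟨M, hM⟩ := hc
  refine ⟨M, fun n t ht => le_trans (mul_le_mul_of_nonneg_right ?_ (pow_nonneg hR n)) (hM n t ht)⟩
  rw [abs_div, abs_two]
  linarith [abs_nonneg (c n t)]

lemma ev_sub {c d : ℕ → ℝ → ℝ} {T R : ℝ} (hc : Geo c T R) (hd : Geo d T R) {q : ℝ × ℝ}
    (hq : q ∈ box T R) : ev (fun n t => c n t - d n t) q = ev c q - ev d q := by
  obtain ⟨h1, h2⟩ := mem_box.1 hq
  have hR : 0 < R := (abs_nonneg _).trans_lt h2
  unfold ev
  rw [← (hc.summable hR h1.le h2).tsum_sub (hd.summable hR h1.le h2)]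
  exact tsum_congr fun n => sub_mul _ _ _

lemma ev_half (c : ℕ → ℝ → ℝ) (q : ℝ × ℝ) : ev (fun n t => c n t / 2) q = ev c q / 2 := by
  unfold ev
  rw [← tsum_div_const]
  exact tsum_congr fun n => (div_mul_eq_mul_div _ _ _)

lemma continuous_dX {c : ℕ → ℝ → ℝ} (h : ∀ n, Continuous (c n)) (n : ℕ) : Continuous (dX c n) :=
  continuous_const.mul (h (n + 1))

lemma continuous_dX_iterate {c : ℕ → ℝ → ℝ} (h : ∀ n, Continuous (c n)) :
    ∀ j n, Continuous (dX^[j] c n)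
  | 0 => h
  | j + 1 => by
    rw [Function.iterate_succ_apply']
    exact continuous_dX (continuous_dX_iterate h j)

lemma geo_dX_iterate {c : ℕ → ℝ → ℝ} {T R : ℝ} (h : Geo c T R) :
    ∀ (j : ℕ) {R' : ℝ}, 0 < R' → R' < R → Geo (dX^[j] c) T R'
  | 0, _, hR', hlt => h.mono hR'.le hlt.le
  | j + 1, R', hR', hlt => by
    obtain ⟨R2, h1, h2⟩ := exists_between hlt
    rw [Function.iterate_succ_apply']
    exact (geo_dX_iterate h j (hR'.trans h1) h2).dX hR' h1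

lemma hasDerivAt_dX_iterate {c c' : ℕ → ℝ → ℝ} {T : ℝ}
    (h : ∀ n t, t ∈ Ioo (-T) T → HasDerivAt (c n) (c' n t) t) :
    ∀ (j n : ℕ) (t : ℝ), t ∈ Ioo (-T) T → HasDerivAt (dX^[j] c n) (dX^[j] c' n t) t
  | 0 => h
  | j + 1 => fun n t ht => by
    rw [Function.iterate_succ_apply', Function.iterate_succ_apply']
    exact (hasDerivAt_dX_iterate h j (n + 1) t ht).const_mul _

variable {T R Rg : ℝ} {c c' : ℕ → ℝ → ℝ}

lemma dx_iterate_ev (hR : 0 < R) (hlt : R < Rg) (hg : Geo c T Rg) :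
    ∀ j : ℕ, EqOn (dx^[j] (ev c)) (ev (dX^[j] c)) (box T R)
  | 0 => fun q _ => rfl
  | j + 1 => by
    simp only [Function.iterate_succ_apply']
    refine (dx_congr (isOpen_box T R) (dx_iterate_ev hR hlt hg j)).trans fun q hq => ?_
    obtain ⟨h1, h2⟩ := mem_box.1 hq
    exact (hasDerivAt_ev_snd (geo_dX_iterate hg j hR hlt) h1.le h2).deriv

lemma diff_slice_ev (hR : 0 < R) (hlt : R < Rg) (hg : Geo c T Rg) (j : ℕ) {q : ℝ × ℝ}
    (hq : q ∈ box T R) : DifferentiableAt ℝ (fun x => (dx^[j] (ev c)) (q.1, x)) q.2 := by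
  obtain ⟨h1, h2⟩ := mem_box.1 hq
  exact (hasDerivAt_ev_snd (geo_dX_iterate hg j hR hlt) h1.le h2).differentiableAt.congr_of_eventuallyEq
    ((slice_eventually (isOpen_box T R) hq).mono fun _ hx => dx_iterate_ev hR hlt hg j hx)

lemma inX_zero_ev (hR : 0 < R) (hlt : R < Rg) (hg : Geo c T Rg) (hc : ∀ n, Continuous (c n)) :
    InX (box T R) 0 (ev c) := fun j =>
  ⟨(contDiffOn_zero.2 (continuousOn_ev (geo_dX_iterate hg j hR hlt)
      fun n => (continuous_dX_iterate hc j n).continuousOn)).congr (dx_iterate_ev hR hlt hg j),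
    fun _ hq => diff_slice_ev hR hlt hg j hq⟩

/-- The step of the bootstrap. -/
lemma inX_succ_ev (hR : 0 < R) (hlt : R < Rg) (hg : Geo c T Rg) (hg' : Geo c' T Rg)
    (hd : ∀ n t, t ∈ Ioo (-T) T → HasDerivAt (c n) (c' n t) t) {k : ℕ}
    (h : InX (box T R) k (ev c)) (h' : InX (box T R) k (ev c')) :
    InX (box T R) (k + 1) (ev c) := by
  intro j
  refine ⟨?_, fun q hq => diff_slice_ev hR hlt hg j hq⟩
  refine (contDiffOn_succ_of_partials (isOpen_box T R) (f := ev (dX^[j] c))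
    (a := ev (dX^[j] c')) (b := ev (dX^[j + 1] c)) (fun q hq => ?_)
    ((h' j).1.congr fun q hq => (dx_iterate_ev hR hlt hg' j hq).symm)
    ((h (j + 1)).1.congr fun q hq => (dx_iterate_ev hR hlt hg (j + 1) hq).symm)).congr
      (dx_iterate_ev hR hlt hg j)
  rw [Function.iterate_succ_apply' dX j c]
  exact hasFDerivAt_ev (geo_dX_iterate hg j hR hlt) (geo_dX_iterate hg' j hR hlt)
    (hasDerivAt_dX_iterate hd j) hq

lemma InX.vec3 {B : Set (ℝ × ℝ)} (hB : IsOpen B) {k : ℕ} {f : Fin 3 → ℝ × ℝ → ℝ}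
    (h : ∀ i, InX B k (f i)) : InX B k (fun q i => f i q) := by
  have hΦ : ContDiff ℝ ∞ (fun y : ℝ × ℝ × ℝ => ![y.1, y.2.1, y.2.2]) :=
    contDiff_pi.2 fun i => by fin_cases i <;> simp <;> fun_prop
  refine (InX.comp hB isOpen_univ hΦ.contDiffOn ((h 0).prodMk hB ((h 1).prodMk hB (h 2)))
    (mapsTo_univ _ _)).congr hB fun q _ => ?_
  funext i
  fin_cases i <;> rfl

/-- The solution of a linear system depends smoothly on it. -/
lemma contDiffOn_solve (i : Fin 3) :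
    IsOpen {y : ((Fin 3 → ℝ) × (Fin 3 → ℝ) × (Fin 3 → ℝ)) × (Fin 3 → ℝ) |
        (Matrix.of ![y.1.1, y.1.2.1, y.1.2.2]).det ≠ 0} ∧
      ContDiffOn ℝ ∞ (fun y : ((Fin 3 → ℝ) × (Fin 3 → ℝ) × (Fin 3 → ℝ)) × (Fin 3 → ℝ) =>
          (Matrix.of ![y.1.1, y.1.2.1, y.1.2.2]).adjugate.mulVec y.2 i /
            (Matrix.of ![y.1.1, y.1.2.1, y.1.2.2]).det)
        {y | (Matrix.of ![y.1.1, y.1.2.1, y.1.2.2]).det ≠ 0} := by
  have hdet : ContDiff ℝ ∞ (fun y : ((Fin 3 → ℝ) × (Fin 3 → ℝ) × (Fin 3 → ℝ)) × (Fin 3 → ℝ) =>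
      (Matrix.of ![y.1.1, y.1.2.1, y.1.2.2]).det) := by
    simp only [Matrix.det_fin_three, Matrix.of_apply, Matrix.cons_val_zero, Matrix.cons_val_one,
      Matrix.cons_val_two, Matrix.tail_cons, Matrix.head_cons]
    fun_prop
  refine ⟨isOpen_ne.preimage hdet.continuous,
    ContDiffOn.div ?_ hdet.contDiffOn fun y hy => hy⟩
  refine ContDiff.contDiffOn ?_
  simp only [Matrix.mulVec, dotProduct, Fin.sum_univ_three]
  simp only [Matrix.adjugate_fin_three]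
  fin_cases i <;> simp <;> fun_prop

end Vale.Agent.P229
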