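import Mathlib
import Vale.Agent.P229.Coeff

/-!
The second time derivative of the immersion as a fixed point in the space of series.
-/

noncomputable section

open Set Filter Metric
open scoped Topology NNReal

namespace Vale.Agent.P229

variable {P : Par}

/-- Vectors of series. -/
abbrev V3 (P : Par) : Type := Fin 3 → Sp P

/-- The scalar product. -/
def dot (a b : V3 P) : Sp P := ∑ k, smul' (a k) (b k)

/-- A constant vector. -/
def cS (P : Par) (c : Fin 3 → ℝ) : V3 P := fun k => constS P (c k)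

/-- A constant matrix acting on vectors of series. -/
def lin (L : Matrix (Fin 3) (Fin 3) ℝ) (e : V3 P) : V3 P := fun i => ∑ j, L i j • e j

/-- The size of a matrix. -/
def matSize (L : Matrix (Fin 3) (Fin 3) ℝ) : ℝ := ∑ i, ∑ j, |L i j|

lemma matSize_nonneg (L : Matrix (Fin 3) (Fin 3) ℝ) : 0 ≤ matSize L :=
  Finset.sum_nonneg fun _ _ => Finset.sum_nonneg fun _ _ => abs_nonneg _

lemma norm_dot_le (a b : V3 P) : ‖dot a b‖ ≤ 3 * ‖a‖ * ‖b‖ := by
  refine (norm_sum_le_of_le _ fun k _ => (norm_smul'_le _ _).trans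
    (mul_le_mul (norm_le_pi_norm a k) (norm_le_pi_norm b k) (norm_nonneg _) (norm_nonneg _))).trans
    (le_of_eq ?_)
  simp [mul_assoc]

lemma dot_sub_left (a b c : V3 P) : dot (a - b) c = dot a c - dot b c := by
  simp [dot, sub_smul', Finset.sum_sub_distrib]

lemma dot_sub_right (a b c : V3 P) : dot a (b - c) = dot a b - dot a c := by
  simp [dot, smul'_sub, Finset.sum_sub_distrib]

lemma dot_cS_left (c : Fin 3 → ℝ) (a : V3 P) : dot (cS P c) a = ∑ k, c k • a k := by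
  simp [dot, cS, constS_smul']

lemma coef_sum {ι : Type*} (s : Finset ι) (a : ι → Sp P) (n : ℕ) (t : ℝ) :
    coef (∑ i ∈ s, a i) n t = ∑ i ∈ s, coef (a i) n t := by
  classical
  induction s using Finset.induction with
  | empty => simp [coef]
  | insert i s hi ih => rw [Finset.sum_insert hi, Finset.sum_insert hi, coef_add, ih]

lemma smul_constS (r s : ℝ) : r • constS P s = constS P (r * s) := Sp.ext_coef fun n t ht => by
  rw [coef_smul, coef_constS P s n ht, coef_constS P (r * s) n ht]; split_ifs <;> simp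

lemma sum_constS {ι : Type*} (s : Finset ι) (f : ι → ℝ) :
    ∑ i ∈ s, constS P (f i) = constS P (∑ i ∈ s, f i) := Sp.ext_coef fun n t ht => by
  rw [coef_sum, coef_constS P _ n ht, Finset.sum_congr rfl fun i _ => coef_constS P (f i) n ht]
  split_ifs <;> simp

lemma dot_cS_cS (c d : Fin 3 → ℝ) : dot (cS P c) (cS P d) = constS P (c ⬝ᵥ d) := by
  rw [dot_cS_left]
  simp only [cS, smul_constS, sum_constS]
  rfl

lemma norm_cS_le (c : Fin 3 → ℝ) : ‖cS P c‖ ≤ ‖c‖ :=
  (pi_norm_le_iff_of_nonneg (norm_nonneg c)).2 fun k =>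
    (norm_constS_le P (c k)).trans (by simpa using norm_le_pi_norm c k)

lemma lin_sub (L : Matrix (Fin 3) (Fin 3) ℝ) (a b : V3 P) : lin L (a - b) = lin L a - lin L b := by
  funext i
  simp [lin, smul_sub, Finset.sum_sub_distrib]

lemma norm_lin_le (L : Matrix (Fin 3) (Fin 3) ℝ) (e : V3 P) : ‖lin L e‖ ≤ matSize L * ‖e‖ := by
  refine (pi_norm_le_iff_of_nonneg (mul_nonneg (matSize_nonneg L) (norm_nonneg e))).2 fun i => ?_
  refine (norm_sum_le_of_le _ fun j _ => (norm_smul_le _ _).trans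
    (mul_le_mul_of_nonneg_left (norm_le_pi_norm e j) (norm_nonneg _))).trans ?_
  rw [← Finset.sum_mul]
  refine mul_le_mul_of_nonneg_right ?_ (norm_nonneg e)
  exact Finset.single_le_sum (f := fun i => ∑ j, |L i j|)
    (fun i _ => Finset.sum_nonneg fun j _ => abs_nonneg _) (Finset.mem_univ i)

lemma lin_lin (L M : Matrix (Fin 3) (Fin 3) ℝ) (e : V3 P) : lin L (lin M e) = lin (L * M) e := by
  funext i
  simp only [lin, Finset.smul_sum, smul_smul, Matrix.mul_apply, Finset.sum_smul]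
  rw [Finset.sum_comm]

lemma lin_one (e : V3 P) : lin 1 e = e := by
  funext i
  simp [lin, Matrix.one_apply]

/-- The data of the evolution. -/
structure Inputs (P : Par) where
  U0 : V3 P
  V0 : V3 P
  P0 : V3 P
  Z0 : V3 P
  r : V3 P

namespace Inputs

variable (I : Inputs P)

/-- The first time derivative. -/
def u (w : V3 P) : V3 P := fun k => I.U0 k + intT (w k)

/-- The mixed derivative. -/
def p (w : V3 P) : V3 P := fun k => I.P0 k + intX (w k)

/-- The first space derivative. -/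
def v (w : V3 P) : V3 P := fun k => I.V0 k + intT (I.p w k)

/-- The second space derivative. -/
def z (w : V3 P) : V3 P := fun k => I.Z0 k + intX (I.p w k)

/-- The three equations. -/
def eqn (w : V3 P) : V3 P :=
  ![dot (I.u w) w - I.r 0, dot (I.v w) w - I.r 1, dot (I.z w) w - dot (I.p w) (I.p w) - I.r 2]

lemma norm_u_sub (w w' : V3 P) : ‖I.u w - I.u w'‖ ≤ P.T * ‖w - w'‖ :=
  (pi_norm_le_iff_of_nonneg (mul_nonneg P.hT.le (norm_nonneg _))).2 fun k => by
    rw [Pi.sub_apply, u, u, add_sub_add_left_eq_sub, ← intT_sub]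
    exact (norm_intT_le _).trans (mul_le_mul_of_nonneg_left (norm_le_pi_norm (w - w') k) P.hT.le)

lemma norm_p_sub (w w' : V3 P) : ‖I.p w - I.p w'‖ ≤ 4 * P.T / P.ρ * ‖w - w'‖ := by
  have : 0 ≤ 4 * P.T / P.ρ := by have := P.hT; have := P.hρ; positivity
  refine (pi_norm_le_iff_of_nonneg (mul_nonneg this (norm_nonneg _))).2 fun k => ?_
  rw [Pi.sub_apply, p, p, add_sub_add_left_eq_sub, ← intX_sub]
  exact (norm_intX_le _).trans (mul_le_mul_of_nonneg_left (norm_le_pi_norm (w - w') k) this)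

lemma norm_v_sub (w w' : V3 P) : ‖I.v w - I.v w'‖ ≤ P.T * ‖I.p w - I.p w'‖ :=
  (pi_norm_le_iff_of_nonneg (mul_nonneg P.hT.le (norm_nonneg _))).2 fun k => by
    rw [Pi.sub_apply, v, v, add_sub_add_left_eq_sub, ← intT_sub]
    exact (norm_intT_le _).trans
      (mul_le_mul_of_nonneg_left (norm_le_pi_norm (I.p w - I.p w') k) P.hT.le)

lemma norm_z_sub (w w' : V3 P) : ‖I.z w - I.z w'‖ ≤ 4 * P.T / P.ρ * ‖I.p w - I.p w'‖ := by
  have : 0 ≤ 4 * P.T / P.ρ := by have := P.hT; have := P.hρ; positivity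
  refine (pi_norm_le_iff_of_nonneg (mul_nonneg this (norm_nonneg _))).2 fun k => ?_
  rw [Pi.sub_apply, z, z, add_sub_add_left_eq_sub, ← intX_sub]
  exact (norm_intX_le _).trans
    (mul_le_mul_of_nonneg_left (norm_le_pi_norm (I.p w - I.p w') k) this)

/-- The data are within `e` of constants. -/
structure Near (Uc Vc Zc Pc rc : Fin 3 → ℝ) (e : ℝ) : Prop where
  hT : P.T ≤ e
  hTρ : 4 * P.T / P.ρ ≤ e
  hU : ‖I.U0 - cS P Uc‖ ≤ e
  hV : ‖I.V0 - cS P Vc‖ ≤ e
  hZ : ‖I.Z0 - cS P Zc‖ ≤ e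
  hP : ‖I.P0 - cS P Pc‖ ≤ e
  hr : ‖I.r - cS P rc‖ ≤ e

variable {I} {Uc Vc Zc Pc rc : Fin 3 → ℝ} {e A : ℝ}

lemma Near.bounds (h : I.Near Uc Vc Zc Pc rc e) (he : 0 ≤ e) (he1 : e ≤ 1) (hA : ‖Pc‖ + 1 ≤ A)
    {w : V3 P} (hw : ‖w‖ ≤ A) :
    ‖I.u w - cS P Uc‖ ≤ e * (1 + A) ∧ ‖I.p w - cS P Pc‖ ≤ e * (1 + A) ∧ ‖I.p w‖ ≤ 2 * A ∧
      ‖I.v w - cS P Vc‖ ≤ e * (1 + 2 * A) ∧ ‖I.z w - cS P Zc‖ ≤ e * (1 + 2 * A) := by
  have hA0 : 0 ≤ A := (norm_nonneg w).trans hw
  have hT0 := P.hT.le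
  have hX0 : 0 ≤ 4 * P.T / P.ρ := by have := P.hρ; positivity
  have hu : ‖I.u w - cS P Uc‖ ≤ e * (1 + A) := by
    refine (pi_norm_le_iff_of_nonneg (by positivity)).2 fun k => ?_
    rw [Pi.sub_apply, u, add_sub_right_comm, mul_add, mul_one]
    exact (norm_add_le _ _).trans (add_le_add ((norm_le_pi_norm (I.U0 - cS P Uc) k).trans h.hU)
      ((norm_intT_le _).trans (mul_le_mul h.hT ((norm_le_pi_norm w k).trans hw) (norm_nonneg _) he)))
  have hp : ‖I.p w - cS P Pc‖ ≤ e * (1 + A) := by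
    refine (pi_norm_le_iff_of_nonneg (by positivity)).2 fun k => ?_
    rw [Pi.sub_apply, p, add_sub_right_comm, mul_add, mul_one]
    exact (norm_add_le _ _).trans (add_le_add ((norm_le_pi_norm (I.P0 - cS P Pc) k).trans h.hP)
      ((norm_intX_le _).trans
        (mul_le_mul h.hTρ ((norm_le_pi_norm w k).trans hw) (norm_nonneg _) he)))
  have hp2 : ‖I.p w‖ ≤ 2 * A := by
    have h1 := norm_le_insert' (I.p w) (cS P Pc)
    have h2 := norm_cS_le (P := P) Pc
    have h3 : e * (1 + A) ≤ 1 + A := mul_le_of_le_one_left (by positivity) he1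
    linarith
  refine ⟨hu, hp, hp2, ?_, ?_⟩
  · refine (pi_norm_le_iff_of_nonneg (by positivity)).2 fun k => ?_
    rw [Pi.sub_apply, v, add_sub_right_comm, mul_add, mul_one]
    exact (norm_add_le _ _).trans (add_le_add ((norm_le_pi_norm (I.V0 - cS P Vc) k).trans h.hV)
      ((norm_intT_le _).trans
        (mul_le_mul h.hT ((norm_le_pi_norm _ k).trans hp2) (norm_nonneg _) he)))
  · refine (pi_norm_le_iff_of_nonneg (by positivity)).2 fun k => ?_
    rw [Pi.sub_apply, z, add_sub_right_comm, mul_add, mul_one]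
    exact (norm_add_le _ _).trans (add_le_add ((norm_le_pi_norm (I.Z0 - cS P Zc) k).trans h.hZ)
      ((norm_intX_le _).trans
        (mul_le_mul h.hTρ ((norm_le_pi_norm _ k).trans hp2) (norm_nonneg _) he)))

/-- A line of the linearisation. -/
lemma line_bound {a a' : V3 P} {c : Fin 3 → ℝ} {w w' : V3 P} {α β : ℝ} (ha : ‖a - cS P c‖ ≤ α)
    (ha' : ‖a - a'‖ ≤ β * ‖w - w'‖) (hw' : ‖w'‖ ≤ A) :
    ‖dot a w - dot a' w' - ∑ k, c k • (w - w') k‖ ≤ 3 * (α + β * A) * ‖w - w'‖ := by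
  have e : dot a w - dot a' w' - ∑ k, c k • (w - w') k =
      dot (a - cS P c) (w - w') + dot (a - a') w' := by
    rw [← dot_cS_left, dot_sub_left, dot_sub_left, dot_sub_right, dot_sub_right]
    abel
  rw [e]
  refine (norm_add_le _ _).trans ((add_le_add (norm_dot_le _ _) (norm_dot_le _ _)).trans ?_)
  have h1 : ‖a - cS P c‖ * ‖w - w'‖ ≤ α * ‖w - w'‖ := mul_le_mul_of_nonneg_right ha (norm_nonneg _)
  have h2 : ‖a - a'‖ * ‖w'‖ ≤ β * ‖w - w'‖ * A :=
    mul_le_mul ha' hw' (norm_nonneg _) ((norm_nonneg _).trans ha')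
  nlinarith

/-- The equations differ from their linearisation by little. -/
lemma Near.eqn_diff (h : I.Near Uc Vc Zc Pc rc e) (he : 0 ≤ e) (he1 : e ≤ 1) (hA : ‖Pc‖ + 1 ≤ A)
    {w w' : V3 P} (hw : ‖w‖ ≤ A) (hw' : ‖w'‖ ≤ A) :
    ‖I.eqn w - I.eqn w' - lin (Matrix.of ![Uc, Vc, Zc]) (w - w')‖ ≤
      e * (3 + 21 * A) * ‖w - w'‖ := by
  obtain ⟨hu, -, hp2, hv, hz⟩ := h.bounds he he1 hA hw
  obtain ⟨-, -, hp2', -, -⟩ := h.bounds he he1 hA hw'
  have hA0 : 0 ≤ A := (norm_nonneg w).trans hw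
  have hd := norm_nonneg (w - w')
  have du : ‖I.u w - I.u w'‖ ≤ e * ‖w - w'‖ :=
    (I.norm_u_sub w w').trans (mul_le_mul_of_nonneg_right h.hT hd)
  have dp : ‖I.p w - I.p w'‖ ≤ e * ‖w - w'‖ :=
    (I.norm_p_sub w w').trans (mul_le_mul_of_nonneg_right h.hTρ hd)
  have dp1 : ‖I.p w - I.p w'‖ ≤ ‖w - w'‖ :=
    dp.trans (mul_le_of_le_one_left hd he1)
  have dv : ‖I.v w - I.v w'‖ ≤ e * ‖w - w'‖ :=
    (I.norm_v_sub w w').trans (mul_le_mul h.hT dp1 (norm_nonneg _) he)
  have dz : ‖I.z w - I.z w'‖ ≤ e * ‖w - w'‖ :=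
    (I.norm_z_sub w w').trans (mul_le_mul h.hTρ dp1 (norm_nonneg _) he)
  refine (pi_norm_le_iff_of_nonneg (by positivity)).2 fun i => ?_
  fin_cases i
  · simp only [Pi.sub_apply, eqn, lin, Matrix.of_apply, Fin.zero_eta, Matrix.cons_val_zero,
      sub_sub_sub_cancel_right]
    refine (line_bound hu du hw').trans ?_
    nlinarith [mul_nonneg (mul_nonneg he hA0) hd]
  · simp only [Pi.sub_apply, eqn, lin, Matrix.of_apply, Fin.mk_one, Matrix.cons_val_one,
      Matrix.cons_val_zero, sub_sub_sub_cancel_right]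
    refine (line_bound hv dv hw').trans ?_
    nlinarith [mul_nonneg (mul_nonneg he hA0) hd]
  · simp only [Pi.sub_apply, eqn, lin, Matrix.of_apply, Fin.reduceFinMk, Matrix.cons_val_two,
      Matrix.tail_cons, Matrix.head_cons, sub_sub_sub_cancel_right]
    have e' : dot (I.z w) w - dot (I.p w) (I.p w) - (dot (I.z w') w' - dot (I.p w') (I.p w')) -
          ∑ k, Zc k • (w - w') k =
        (dot (I.z w) w - dot (I.z w') w' - ∑ k, Zc k • (w - w') k) -
          (dot (I.p w) (I.p w - I.p w') + dot (I.p w - I.p w') (I.p w')) := by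
      rw [dot_sub_right, dot_sub_left]; abel
    simp only [Pi.sub_apply] at e'
    rw [e']
    refine (norm_sub_le _ _).trans ((add_le_add (line_bound hz dz hw') ((norm_add_le _ _).trans
      (add_le_add (norm_dot_le _ _) (norm_dot_le _ _)))).trans ?_)
    have h1 : ‖I.p w‖ * ‖I.p w - I.p w'‖ ≤ 2 * A * (e * ‖w - w'‖) :=
      mul_le_mul hp2 dp (norm_nonneg _) (by positivity)
    have h2 : ‖I.p w - I.p w'‖ * ‖I.p w'‖ ≤ e * ‖w - w'‖ * (2 * A) :=
      mul_le_mul dp hp2' (norm_nonneg _) (by positivity)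
    nlinarith

/-- The residual of the constant solution is small. -/
lemma Near.eqn_centre (h : I.Near Uc Vc Zc Pc rc e) (he : 0 ≤ e) (he1 : e ≤ 1) (hA : ‖Pc‖ + 1 ≤ A)
    {wc : Fin 3 → ℝ} (hwc : ‖wc‖ ≤ A) (h0 : Uc ⬝ᵥ wc = rc 0) (h1 : Vc ⬝ᵥ wc = rc 1)
    (h2 : Zc ⬝ᵥ wc = Pc ⬝ᵥ Pc + rc 2) :
    ‖I.eqn (cS P wc)‖ ≤ e * (3 * (1 + 2 * A) * A + 9 * A * (1 + A) + 1) := by
  have hw : ‖cS P wc‖ ≤ A := (norm_cS_le wc).trans hwc
  obtain ⟨hu, hp, hp2, hv, hz⟩ := h.bounds he he1 hA hw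
  have hA0 : 0 ≤ A := (norm_nonneg _).trans hwc
  have hr : ∀ i, ‖I.r i - constS P (rc i)‖ ≤ e := fun i =>
    (norm_le_pi_norm (I.r - cS P rc) i).trans h.hr
  have gen : ∀ {a : V3 P} {c : Fin 3 → ℝ} {α : ℝ}, ‖a - cS P c‖ ≤ α →
      ‖dot a (cS P wc) - constS P (c ⬝ᵥ wc)‖ ≤ 3 * α * A := by
    intro a c α ha
    rw [← dot_cS_cS, ← dot_sub_left]
    exact (norm_dot_le _ _).trans (mul_le_mul (mul_le_mul_of_nonneg_left ha (by norm_num)) hw
      (norm_nonneg _) (by linarith [(norm_nonneg _).trans ha]))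
  refine (pi_norm_le_iff_of_nonneg (by positivity)).2 fun i => ?_
  fin_cases i
  · simp only [eqn, Fin.zero_eta, Matrix.cons_val_zero]
    have g := gen hu
    rw [h0] at g
    refine (norm_sub_le_norm_sub_add_norm_sub _ (constS P (rc 0)) _).trans ?_
    rw [norm_sub_rev (constS P (rc 0))]
    nlinarith [hr 0, mul_nonneg (mul_nonneg he hA0) hA0, mul_nonneg he hA0]
  · simp only [eqn, Fin.mk_one, Matrix.cons_val_one, Matrix.cons_val_zero]
    have g := gen hv
    rw [h1] at g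
    refine (norm_sub_le_norm_sub_add_norm_sub _ (constS P (rc 1)) _).trans ?_
    rw [norm_sub_rev (constS P (rc 1))]
    nlinarith [hr 1, mul_nonneg (mul_nonneg he hA0) hA0, mul_nonneg he hA0]
  · simp only [eqn, Fin.reduceFinMk, Matrix.cons_val_two, Matrix.tail_cons, Matrix.head_cons]
    have g := gen hz
    rw [h2] at g
    have hPc : ‖cS P Pc‖ ≤ A := (norm_cS_le Pc).trans (by linarith)
    have g2 : ‖dot (I.p (cS P wc)) (I.p (cS P wc)) - constS P (Pc ⬝ᵥ Pc)‖ ≤
        3 * (e * (1 + A)) * (2 * A) + 3 * A * (e * (1 + A)) := by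
      have e' : dot (I.p (cS P wc)) (I.p (cS P wc)) - constS P (Pc ⬝ᵥ Pc) =
          dot (I.p (cS P wc) - cS P Pc) (I.p (cS P wc)) +
            dot (cS P Pc) (I.p (cS P wc) - cS P Pc) := by
        rw [dot_sub_left, dot_sub_right, dot_cS_cS]; abel
      rw [e']
      refine (norm_add_le _ _).trans (add_le_add ((norm_dot_le _ _).trans ?_)
        ((norm_dot_le _ _).trans ?_))
      · exact mul_le_mul (mul_le_mul_of_nonneg_left hp (by norm_num)) hp2 (norm_nonneg _)
          (by positivity)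
      · exact mul_le_mul (mul_le_mul_of_nonneg_left hPc (by norm_num)) hp (norm_nonneg _)
          (by positivity)
    have hc : constS P (Pc ⬝ᵥ Pc + rc 2) = constS P (Pc ⬝ᵥ Pc) + constS P (rc 2) := by
      refine Sp.ext_coef fun n t ht => ?_
      rw [coef_add, coef_constS P _ n ht, coef_constS P _ n ht, coef_constS P _ n ht]
      split_ifs <;> simp
    rw [hc] at g
    have e' : dot (I.z (cS P wc)) (cS P wc) - dot (I.p (cS P wc)) (I.p (cS P wc)) - I.r 2 =
        (dot (I.z (cS P wc)) (cS P wc) - (constS P (Pc ⬝ᵥ Pc) + constS P (rc 2))) -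
        (dot (I.p (cS P wc)) (I.p (cS P wc)) - constS P (Pc ⬝ᵥ Pc)) -
        (I.r 2 - constS P (rc 2)) := by abel
    rw [e']
    refine (norm_sub_le _ _).trans ((add_le_add (norm_sub_le _ _) le_rfl).trans ?_)
    nlinarith [hr 2]

end Inputs

/-- Existence of the fixed point, with an invertible matrix along it. -/
theorem exists_fixed (Uc Vc Zc Pc rc : Fin 3 → ℝ) (hdet : (Matrix.of ![Uc, Vc, Zc]).det ≠ 0) :
    ∃ e : ℝ, 0 < e ∧ ∀ (P : Par) (I : Inputs P), I.Near Uc Vc Zc Pc rc e →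
      ∃ w : V3 P, I.eqn w = 0 ∧ ∀ q ∈ box P.T (P.ρ / 2),
        (Matrix.of ![fun k => evS (I.u w k) q, fun k => evS (I.v w k) q,
          fun k => evS (I.z w k) q]).det ≠ 0 := by
  set M0 := Matrix.of ![Uc, Vc, Zc]
  set L := M0⁻¹
  have hLM : L * M0 = 1 := Matrix.nonsing_inv_mul M0 (isUnit_iff_ne_zero.2 hdet)
  have hML : M0 * L = 1 := Matrix.mul_nonsing_inv M0 (isUnit_iff_ne_zero.2 hdet)
  set r' : Fin 3 → ℝ := ![rc 0, rc 1, Pc ⬝ᵥ Pc + rc 2]
  set wc := L.mulVec r'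
  have hwc : M0.mulVec wc = r' := by rw [Matrix.mulVec_mulVec, hML, Matrix.one_mulVec]
  set A := ‖wc‖ + ‖Pc‖ + 2
  set N := matSize L + 1
  have hN : 0 < N := by linarith [matSize_nonneg L]
  set K := 3 + 21 * A + (3 * (1 + 2 * A) * A + 9 * A * (1 + A) + 1) + 3 * (1 + 2 * A) with hK
  have hA : 0 < A := by positivity
  have hK0 : 0 < K := by positivity
  refine ⟨min 1 (1 / (2 * N * K)), by positivity, fun P I hnear => ?_⟩
  set e := min 1 (1 / (2 * N * K)) with he_def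
  have he : 0 ≤ e := by positivity
  have he1 : e ≤ 1 := min_le_left _ _
  have hsmall : N * (e * K) ≤ 1 / 2 := by
    have h := mul_le_mul_of_nonneg_left (min_le_right (1:ℝ) (1 / (2 * N * K))) (by positivity :
      0 ≤ N * K)
    rw [show N * K * (1 / (2 * N * K)) = 1 / 2 by field_simp] at h
    rw [he_def]
    linarith
  have hbnd : ∀ {c : ℝ}, 0 ≤ c → c ≤ K → matSize L * (e * c) ≤ 1 / 2 := fun {c} hc0 hc =>
    le_trans (mul_le_mul (by linarith) (mul_le_mul_of_nonneg_left hc he) (by positivity) hN.le)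
      hsmall
  have hPA : ‖Pc‖ + 1 ≤ A := by
    show ‖Pc‖ + 1 ≤ ‖wc‖ + ‖Pc‖ + 2
    linarith [norm_nonneg wc]
  set Φ : V3 P → V3 P := fun w => w - lin L (I.eqn w) with hΦ
  set s := closedBall (cS P wc) 1
  have hball : ∀ w ∈ s, ‖w‖ ≤ A := fun w hw => by
    have h1 := norm_le_insert' w (cS P wc)
    have h2 := norm_cS_le (P := P) wc
    have h3 : ‖w - cS P wc‖ ≤ 1 := by rw [← dist_eq_norm]; exact mem_closedBall.1 hw
    show ‖w‖ ≤ ‖wc‖ + ‖Pc‖ + 2
    linarith [norm_nonneg Pc]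
  have hlip : ∀ w ∈ s, ∀ w' ∈ s, ‖Φ w - Φ w'‖ ≤ 1 / 2 * ‖w - w'‖ := by
    intro w hw w' hw'
    have e1 : Φ w - Φ w' = -lin L (I.eqn w - I.eqn w' - lin M0 (w - w')) := by
      rw [lin_sub, lin_lin, hLM, lin_one, lin_sub]
      simp only [hΦ]
      abel
    rw [e1, norm_neg]
    refine (norm_lin_le _ _).trans ((mul_le_mul_of_nonneg_left
      (hnear.eqn_diff he he1 hPA (hball w hw) (hball w' hw')) (matSize_nonneg L)).trans ?_)
    rw [← mul_assoc]
    refine mul_le_mul_of_nonneg_right (hbnd (by positivity) ?_) (norm_nonneg _)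
    rw [hK]; nlinarith
  have hcentre : ‖Φ (cS P wc) - cS P wc‖ ≤ 1 / 2 := by
    rw [hΦ]; simp only
    rw [sub_sub_cancel_left, norm_neg]
    refine (norm_lin_le _ _).trans ((mul_le_mul_of_nonneg_left
      (hnear.eqn_centre he he1 hPA (wc := wc) ?_ ?_ ?_ ?_) (matSize_nonneg L)).trans
        (hbnd (by positivity) (by rw [hK]; nlinarith)))
    · show ‖wc‖ ≤ ‖wc‖ + ‖Pc‖ + 2
      linarith [norm_nonneg Pc]
    · exact congrFun hwc 0
    · exact congrFun hwc 1
    · exact congrFun hwc 2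
  have hmaps : MapsTo Φ s s := fun w hw => by
    rw [mem_closedBall, dist_eq_norm]
    calc ‖Φ w - cS P wc‖ ≤ ‖Φ w - Φ (cS P wc)‖ + ‖Φ (cS P wc) - cS P wc‖ :=
          norm_sub_le_norm_sub_add_norm_sub _ _ _
      _ ≤ 1 / 2 * ‖w - cS P wc‖ + 1 / 2 :=
          add_le_add (hlip w hw _ (mem_closedBall_self zero_le_one)) hcentre
      _ ≤ 1 := by
          have : ‖w - cS P wc‖ ≤ 1 := by rw [← dist_eq_norm]; exact mem_closedBall.1 hw
          linarith
  have hcontr : ContractingWith (1 / 2 : ℝ≥0) (hmaps.restrict Φ s s) := by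
    refine ⟨by norm_num, LipschitzWith.of_dist_le_mul fun a b => ?_⟩
    simpa [Subtype.dist_eq, dist_eq_norm] using hlip a a.2 b b.2
  obtain ⟨w, hw, hfix, -⟩ := hcontr.exists_fixedPoint' isClosed_closedBall.isComplete hmaps
    (mem_closedBall_self zero_le_one) (edist_ne_top _ _)
  refine ⟨w, ?_, fun q hq => ?_⟩
  · have h1 : lin L (I.eqn w) = 0 := sub_eq_self.1 hfix
    have h2 := congrArg (lin M0) h1
    rw [lin_lin, hML, lin_one] at h2
    rw [h2]
    funext i
    simp [lin]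
  · obtain ⟨hu, -, -, hv, hz⟩ := hnear.bounds he he1 hPA (hball w hw)
    have hrow : ∀ {a : V3 P} {c : Fin 3 → ℝ}, ‖a - cS P c‖ ≤ e * (1 + 2 * A) → ∀ k,
        |c k - evS (a k) q| ≤ e * (1 + 2 * A) := by
      intro a c ha k
      rw [abs_sub_comm, ← evS_constS P (c k) hq, ← evS_sub _ _ hq]
      exact (abs_evS_le _ hq).trans ((norm_le_pi_norm (a - cS P c) k).trans ha)
    have hu' : ‖I.u w - cS P Uc‖ ≤ e * (1 + 2 * A) := hu.trans (by nlinarith)
    set Mq := Matrix.of ![fun k => evS (I.u w k) q, fun k => evS (I.v w k) q,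
      fun k => evS (I.z w k) q] with hMq
    have hentry : ∀ i k, |M0 i k - Mq i k| ≤ e * (1 + 2 * A) := by
      intro i k
      fin_cases i
      · exact hrow hu' k
      · exact hrow hv k
      · exact hrow hz k
    intro h0
    obtain ⟨x, hx, hx0⟩ := Matrix.exists_mulVec_eq_zero_iff.2 h0
    have hxeq : x = L.mulVec ((M0 - Mq).mulVec x) := by
      rw [Matrix.sub_mulVec, hx0, sub_zero, Matrix.mulVec_mulVec, hLM, Matrix.one_mulVec]
    have hd : ∀ i, |((M0 - Mq).mulVec x) i| ≤ e * (3 * (1 + 2 * A)) * ‖x‖ := by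
      intro i
      show |∑ k, (M0 - Mq) i k * x k| ≤ _
      simp only [Matrix.sub_apply]
      refine (Finset.abs_sum_le_sum_abs _ _).trans ((Finset.sum_le_sum fun k _ =>
        (abs_mul _ _).le.trans (mul_le_mul (hentry i k)
          (by simpa using norm_le_pi_norm x k) (abs_nonneg _) (by positivity))).trans (le_of_eq ?_))
      simp
      ring
    have hxn : ‖x‖ ≤ matSize L * (e * (3 * (1 + 2 * A))) * ‖x‖ := by
      refine (pi_norm_le_iff_of_nonneg (mul_nonneg (mul_nonneg (matSize_nonneg L) (by positivity))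
        (norm_nonneg x))).2 fun i => ?_
      conv_lhs => rw [hxeq]
      rw [Real.norm_eq_abs, mul_assoc]
      show |∑ k, L i k * ((M0 - Mq).mulVec x) k| ≤ _
      refine (Finset.abs_sum_le_sum_abs _ _).trans ((Finset.sum_le_sum fun k _ =>
        (abs_mul _ _).le.trans (mul_le_mul_of_nonneg_left (hd k) (abs_nonneg _))).trans ?_)
      rw [← Finset.sum_mul]
      exact mul_le_mul_of_nonneg_right (Finset.single_le_sum (f := fun i => ∑ j, |L i j|)
        (fun i _ => Finset.sum_nonneg fun j _ => abs_nonneg _) (Finset.mem_univ i)) (by positivity)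
    have := hbnd (c := 3 * (1 + 2 * A)) (by positivity) (by rw [hK]; nlinarith)
    exact hx (norm_eq_zero.1 (by nlinarith [norm_nonneg x]))

end Vale.Agent.P229
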