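import Mathlib
import Vale.Agent.P229.Bootstrap
import Vale.Agent.P229.Fixed

/-!
The choice of the parameters.
-/

noncomputable section

open Set Filter Metric
open scoped Topology ContDiff

namespace Vale.Agent.P229

variable {T R : ℝ}

/-- The right hand sides: half `g11_t`, `g12_t - g11_x / 2`, `g12_tx - g22_tt / 2 - g11_xx / 2`. -/
def rhs (A B C : Jet T R) : Fin 3 → ℕ → ℝ → ℝ :=
  ![fun n t => A.c1 n t / 2, fun n t => B.c1 n t - dX A.c0 n t / 2,
    fun n t => (dX B.c1 n t - C.c2 n t / 2) - dX (dX A.c0) n t / 2]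

lemma continuous_rhs (A B C : Jet T R) (i : Fin 3) (n : ℕ) : Continuous (rhs A B C i n) := by
  fin_cases i
  · exact (A.cont1 n).div_const 2
  · exact (B.cont1 n).sub ((continuous_dX A.cont0 n).div_const 2)
  · exact ((continuous_dX B.cont1 n).sub ((C.cont2 n).div_const 2)).sub
      ((continuous_dX (continuous_dX A.cont0) n).div_const 2)

lemma geo_rhs (A B C : Jet T R) {R' : ℝ} (hR' : 0 < R') (hlt : R' < R) (i : Fin 3) :
    Geo (rhs A B C i) T R' := by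
  obtain ⟨R1, h1, h2⟩ := exists_between hlt
  fin_cases i
  · exact (A.geo1.mono hR'.le hlt.le).half hR'.le
  · exact (B.geo1.mono hR'.le hlt.le).sub ((A.geo0.dX hR' hlt).half hR'.le) hR'.le
  · exact ((B.geo1.dX hR' hlt).sub ((C.geo2.mono hR'.le hlt.le).half hR'.le) hR'.le).sub
      (((A.geo0.dX (hR'.trans h1) h2).dX hR' h1).half hR'.le) hR'.le

variable {A B C : Jet T R}

/-- The data as elements of the space. -/
def inputsOf (P : Par) (D : Data A B C) : Inputs P where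
  U0 := fun k => elem P (cst (D.U k))
  V0 := fun k => elem P (cst (D.V k))
  P0 := fun k => elem P (dX (cst (D.U k)))
  Z0 := fun k => elem P (dX (cst (D.V k)))
  r := fun k => elem P (rhs A B C k)

/-- Sequences are close to constants for small parameters. -/
lemma eventually_near {T0 R1 : ℝ} (hT0 : 0 < T0) (hR1 : 0 < R1) {c : ℕ → ℝ → ℝ}
    (hc : ∀ n, Continuous (c n)) (hg : Geo c T0 R1) {e : ℝ} (he : 0 < e) :
    ∀ᶠ δ in 𝓝[>] (0 : ℝ), ∀ P : Par, P.ρ ≤ δ → P.T ≤ δ →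
      ‖elem P c - constS P (c 0 0)‖ ≤ e := by
  obtain ⟨M, hM⟩ := hg
  obtain ⟨d, hd, hcd⟩ := Metric.continuous_iff.1 (hc 0) 0 (e / 2) (half_pos he)
  have hpos : 0 < min (min T0 (d / 2)) (min (R1 / 2) (e / 2 * R1 / (2 * max M 0 + 1))) := by
    positivity
  filter_upwards [Ioc_mem_nhdsGT hpos] with δ hδ P hρ hT
  obtain ⟨-, hδ'⟩ := hδ
  obtain ⟨⟨h1, h2⟩, h3, h4⟩ := (show (δ ≤ T0 ∧ δ ≤ d / 2) ∧ δ ≤ R1 / 2 ∧
      δ ≤ e / 2 * R1 / (2 * max M 0 + 1) by simpa [le_min_iff] using hδ')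
  refine (norm_elem_sub_constS_le hc (M := M) (R := R1) (r := c 0 0) (e := e / 2)
    (fun n t ht => hM n t (ht.trans (hT.trans h1))) (by linarith) fun t ht => ?_).trans ?_
  · refine (hcd t ?_).le
    rw [dist_zero_right, Real.norm_eq_abs]
    linarith [ht.trans hT]
  · have h6 := hρ.trans h4
    rw [le_div_iff₀ (by positivity)] at h6
    have : 2 * max M 0 * (P.ρ / R1) ≤ e / 2 := by
      rw [← mul_div_assoc, div_le_iff₀ hR1]
      nlinarith [P.hρ, le_max_right M 0]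
    linarith

theorem exists_params (hT : 0 < T) (D : Data A B C) :
    ∃ (P : Par) (w : V3 P), P.T ≤ T ∧ P.ρ < D.R' / 2 ∧ (inputsOf P D).eqn w = 0 ∧
      ∀ q ∈ box P.T (P.ρ / 2),
        (Matrix.of ![fun k => evS ((inputsOf P D).u w k) q, fun k => evS ((inputsOf P D).v w k) q,
          fun k => evS ((inputsOf P D).z w k) q]).det ≠ 0 := by
  set Uc : Fin 3 → ℝ := fun k => cst (D.U k) 0 0
  set Vc : Fin 3 → ℝ := fun k => cst (D.V k) 0 0
  set Zc : Fin 3 → ℝ := fun k => dX (cst (D.V k)) 0 0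
  have hdet : (Matrix.of ![Uc, Vc, Zc]).det ≠ 0 := by
    have h := D.det_ne
    simp only [ev_zero] at h
    exact h
  obtain ⟨e, he, hfix⟩ := exists_fixed Uc Vc Zc (fun k => dX (cst (D.U k)) 0 0)
    (fun k => rhs A B C k 0 0) hdet
  have h2 : 0 < D.R' / 2 := half_pos D.hR'
  have hlt : D.R' / 2 < D.R' := half_lt_self D.hR'
  have hltR : D.R' / 2 < R := hlt.trans_le D.hle
  have ev1 : ∀ᶠ δ in 𝓝[>] (0 : ℝ), ∀ k : Fin 3, ∀ P : Par, P.ρ ≤ δ → P.T ≤ δ →
      ‖elem P (cst (D.U k)) - constS P (Uc k)‖ ≤ e :=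
    eventually_all.2 fun k => eventually_near hT D.hR' (continuous_cst _) (D.geoU k T) he
  have ev2 : ∀ᶠ δ in 𝓝[>] (0 : ℝ), ∀ k : Fin 3, ∀ P : Par, P.ρ ≤ δ → P.T ≤ δ →
      ‖elem P (cst (D.V k)) - constS P (Vc k)‖ ≤ e :=
    eventually_all.2 fun k => eventually_near hT D.hR' (continuous_cst _) (D.geoV k T) he
  have ev3 : ∀ᶠ δ in 𝓝[>] (0 : ℝ), ∀ k : Fin 3, ∀ P : Par, P.ρ ≤ δ → P.T ≤ δ →
      ‖elem P (dX (cst (D.U k))) - constS P (dX (cst (D.U k)) 0 0)‖ ≤ e :=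
    eventually_all.2 fun k => eventually_near hT h2 (continuous_dX (continuous_cst _))
      ((D.geoU k T).dX h2 hlt) he
  have ev4 : ∀ᶠ δ in 𝓝[>] (0 : ℝ), ∀ k : Fin 3, ∀ P : Par, P.ρ ≤ δ → P.T ≤ δ →
      ‖elem P (dX (cst (D.V k))) - constS P (Zc k)‖ ≤ e :=
    eventually_all.2 fun k => eventually_near hT h2 (continuous_dX (continuous_cst _))
      ((D.geoV k T).dX h2 hlt) he
  have ev5 : ∀ᶠ δ in 𝓝[>] (0 : ℝ), ∀ k : Fin 3, ∀ P : Par, P.ρ ≤ δ → P.T ≤ δ →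
      ‖elem P (rhs A B C k) - constS P (rhs A B C k 0 0)‖ ≤ e :=
    eventually_all.2 fun k => eventually_near hT h2 (continuous_rhs A B C k)
      (geo_rhs A B C h2 hltR k) he
  obtain ⟨δ, ⟨⟨⟨⟨⟨h1', h2'⟩, h3'⟩, h4'⟩, h5'⟩, hδ⟩⟩ :=
    (((((ev1.and ev2).and ev3).and ev4).and ev5).and
      (Ioo_mem_nhdsGT (show (0 : ℝ) < D.R' / 2 from h2))).exists
  obtain ⟨hδ0, hδR⟩ := hδ
  set T1 := min (min δ T) (min e (e * δ / 4))
  let P : Par := ⟨T1, δ, by positivity, hδ0⟩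
  have hρ : P.ρ ≤ δ := le_rfl
  have hTδ : P.T ≤ δ := (min_le_left _ _).trans (min_le_left _ _)
  have hnear : (inputsOf P D).Near Uc Vc Zc (fun k => dX (cst (D.U k)) 0 0)
      (fun k => rhs A B C k 0 0) e :=
    { hT := (min_le_right _ _).trans (min_le_left _ _)
      hTρ := by
        rw [div_le_iff₀ P.hρ]
        have : T1 ≤ e * δ / 4 := (min_le_right _ _).trans (min_le_right _ _)
        show 4 * T1 ≤ e * δ
        linarith
      hU := (pi_norm_le_iff_of_nonneg he.le).2 fun k => h1' k P hρ hTδ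
      hV := (pi_norm_le_iff_of_nonneg he.le).2 fun k => h2' k P hρ hTδ
      hZ := (pi_norm_le_iff_of_nonneg he.le).2 fun k => h4' k P hρ hTδ
      hP := (pi_norm_le_iff_of_nonneg he.le).2 fun k => h3' k P hρ hTδ
      hr := (pi_norm_le_iff_of_nonneg he.le).2 fun k => h5' k P hρ hTδ }
  obtain ⟨w, hw1, hw2⟩ := hfix P (inputsOf P D) hnear
  exact ⟨P, w, (min_le_left _ _).trans (min_le_right _ _), hδR, hw1, hw2⟩

end Vale.Agent.P229
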