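import Mathlib
import Vale.Agent.P229.Params

/-!
From the fixed point to the immersion: the derivative relations, the conservation of the three
constraints and smoothness.
-/

noncomputable section

open Set Filter Metric
open scoped Topology ContDiff

namespace Vale.Agent.P229

variable {T R : ℝ} {A B C : Jet T R}

/-- The parameters and the fixed point. -/
structure Fix (D : Data A B C) where
  P : Par
  w : V3 P
  hT : P.T ≤ T
  hρ : P.ρ < D.R' / 2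
  heq : (inputsOf P D).eqn w = 0
  hdet : ∀ q ∈ box P.T (P.ρ / 2),
    (Matrix.of ![fun k => evS ((inputsOf P D).u w k) q, fun k => evS ((inputsOf P D).v w k) q,
      fun k => evS ((inputsOf P D).z w k) q]).det ≠ 0

namespace Fix

variable {D : Data A B C} (S : Fix D)

/-- The coefficients of `F_tt`. -/
def cw (k : Fin 3) : ℕ → ℝ → ℝ := coef (S.w k)

/-- The coefficients of `F_t`. -/
def cu (k : Fin 3) : ℕ → ℝ → ℝ := coef ((inputsOf S.P D).u S.w k)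

/-- The coefficients of `F_tx`. -/
def cp (k : Fin 3) : ℕ → ℝ → ℝ := coef ((inputsOf S.P D).p S.w k)

/-- The coefficients of `F_x`. -/
def cv (k : Fin 3) : ℕ → ℝ → ℝ := coef ((inputsOf S.P D).v S.w k)

/-- The coefficients of `F_xx`. -/
def cz (k : Fin 3) : ℕ → ℝ → ℝ := coef ((inputsOf S.P D).z S.w k)

/-- The coefficients of `F`. -/
def cF (k : Fin 3) : ℕ → ℝ → ℝ :=
  coef (elem S.P (cst (D.F0 k)) + intT ((inputsOf S.P D).u S.w k))

/-- The domain. -/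
def dom : Set (ℝ × ℝ) := box S.P.T (S.P.ρ / 4)

lemma isOpen_dom : IsOpen S.dom := isOpen_box _ _

lemma quarter_pos : 0 < S.P.ρ / 4 := by linarith [S.P.hρ]

lemma quarter_lt : S.P.ρ / 4 < S.P.ρ / 3 := by linarith [S.P.hρ]

lemma rho_lt : S.P.ρ < D.R' := by linarith [S.hρ, D.hR']

lemma mem_half {q : ℝ × ℝ} (hq : q ∈ S.dom) : q ∈ box S.P.T (S.P.ρ / 2) := by
  obtain ⟨h1, h2⟩ := mem_box.1 hq
  exact mem_box.2 ⟨h1, by linarith [S.P.hρ]⟩

lemma geo3 (a : Sp S.P) : Geo (coef a) S.P.T (S.P.ρ / 3) :=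
  (geo_coef a).mono (by linarith [S.P.hρ]) (by linarith [S.P.hρ])

lemma geo4 (a : Sp S.P) : Geo (coef a) S.P.T (S.P.ρ / 4) :=
  (geo_coef a).mono (by linarith [S.P.hρ]) (by linarith [S.P.hρ])

lemma geo3_dX (a : Sp S.P) : Geo (dX (coef a)) S.P.T (S.P.ρ / 3) :=
  (geo_coef a).dX (by linarith [S.P.hρ]) (by linarith [S.P.hρ])

lemma geo4_dX (a : Sp S.P) : Geo (dX (coef a)) S.P.T (S.P.ρ / 4) :=
  (geo_coef a).dX (by linarith [S.P.hρ]) (by linarith [S.P.hρ])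

lemma coef_cst {c : ℕ → ℝ} (hg : ∀ S', Geo (cst c) S' D.R') (n : ℕ) {t : ℝ} (ht : |t| ≤ S.P.T) :
    coef (elem S.P (cst c)) n t = c n :=
  coef_elem (continuous_cst c) (hg _) S.rho_lt n ht

lemma coef_cst_dX {c : ℕ → ℝ} (hg : ∀ S', Geo (cst c) S' D.R') (n : ℕ) {t : ℝ}
    (ht : |t| ≤ S.P.T) : coef (elem S.P (dX (cst c))) n t = dX (cst c) n t :=
  coef_elem (continuous_dX (continuous_cst c)) ((hg _).dX (R' := D.R' / 2) (half_pos D.hR')
    (half_lt_self D.hR')) S.hρ n ht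

lemma cu_eq (k : Fin 3) (n : ℕ) {t : ℝ} (ht : |t| ≤ S.P.T) :
    S.cu k n t = D.U k n + coef (intT (S.w k)) n t := by
  rw [cu, Inputs.u, coef_add, inputsOf, S.coef_cst (D.geoU k) n ht]

lemma cp_eq (k : Fin 3) (n : ℕ) {t : ℝ} (ht : |t| ≤ S.P.T) : S.cp k n t = dX (S.cu k) n t := by
  rw [cp, Inputs.p, coef_add, coef_intX _ n ht, inputsOf, S.coef_cst_dX (D.geoU k) n ht, dX, dX, dX,
    S.cu_eq k (n + 1) ht, cst]
  ring

lemma cv_eq (k : Fin 3) (n : ℕ) {t : ℝ} (ht : |t| ≤ S.P.T) :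
    S.cv k n t = D.V k n + coef (intT ((inputsOf S.P D).p S.w k)) n t := by
  rw [cv, Inputs.v, coef_add]
  congr 1
  exact S.coef_cst (D.geoV k) n ht

lemma cz_eq (k : Fin 3) (n : ℕ) {t : ℝ} (ht : |t| ≤ S.P.T) : S.cz k n t = dX (S.cv k) n t := by
  rw [cz, Inputs.z, coef_add, coef_intX _ n ht, dX, dX, S.cv_eq k (n + 1) ht, mul_add]
  congr 1
  exact S.coef_cst_dX (D.geoV k) n ht

lemma dX_cF (k : Fin 3) (n : ℕ) {t : ℝ} (ht : |t| ≤ S.P.T) : dX (S.cF k) n t = S.cv k n t := by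
  rw [dX, cF, coef_add, S.coef_cst (D.geoF0 k) _ ht, mul_add, S.cv_eq k n ht, coef_intT _ _ ht,
    coef_intT _ _ ht, ← intervalIntegral.integral_const_mul]
  congr 1
  · exact D.dF0 k n t
  · refine intervalIntegral.integral_congr fun s hs => ?_
    have h := abs_sub_left_of_mem_uIcc hs
    rw [sub_zero, sub_zero] at h
    exact (S.cp_eq k n (h.trans ht)).symm

lemma mem_Icc_of_Ioo {t : ℝ} (ht : t ∈ Ioo (-S.P.T) S.P.T) : |t| ≤ S.P.T :=
  abs_le.2 ⟨ht.1.le, ht.2.le⟩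

lemma deriv_cu (k : Fin 3) (n : ℕ) (t : ℝ) (ht : t ∈ Ioo (-S.P.T) S.P.T) :
    HasDerivAt (S.cu k n) (S.cw k n t) t := by
  refine ((hasDerivAt_coef_intT (S.w k) n ht).const_add (D.U k n)).congr_of_eventuallyEq ?_
  filter_upwards [isOpen_Ioo.mem_nhds ht] with s hs
  exact S.cu_eq k n (S.mem_Icc_of_Ioo hs)

lemma deriv_cp (k : Fin 3) (n : ℕ) (t : ℝ) (ht : t ∈ Ioo (-S.P.T) S.P.T) :
    HasDerivAt (S.cp k n) (dX (S.cw k) n t) t := by
  refine ((S.deriv_cu k (n + 1) t ht).const_mul _).congr_of_eventuallyEq ?_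
  filter_upwards [isOpen_Ioo.mem_nhds ht] with s hs
  exact S.cp_eq k n (S.mem_Icc_of_Ioo hs)

lemma deriv_cv (k : Fin 3) (n : ℕ) (t : ℝ) (ht : t ∈ Ioo (-S.P.T) S.P.T) :
    HasDerivAt (S.cv k n) (S.cp k n t) t := by
  refine ((hasDerivAt_coef_intT ((inputsOf S.P D).p S.w k) n ht).const_add
    (D.V k n)).congr_of_eventuallyEq ?_
  filter_upwards [isOpen_Ioo.mem_nhds ht] with s hs
  exact S.cv_eq k n (S.mem_Icc_of_Ioo hs)

lemma deriv_cz (k : Fin 3) (n : ℕ) (t : ℝ) (ht : t ∈ Ioo (-S.P.T) S.P.T) :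
    HasDerivAt (S.cz k n) (dX (S.cp k) n t) t := by
  refine ((S.deriv_cv k (n + 1) t ht).const_mul _).congr_of_eventuallyEq ?_
  filter_upwards [isOpen_Ioo.mem_nhds ht] with s hs
  exact S.cz_eq k n (S.mem_Icc_of_Ioo hs)

lemma deriv_cF (k : Fin 3) (n : ℕ) (t : ℝ) (ht : t ∈ Ioo (-S.P.T) S.P.T) :
    HasDerivAt (S.cF k n) (S.cu k n t) t := by
  refine ((hasDerivAt_coef_intT ((inputsOf S.P D).u S.w k) n ht).const_add
    (D.F0 k n)).congr_of_eventuallyEq ?_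
  filter_upwards [isOpen_Ioo.mem_nhds ht] with s hs
  rw [cF, coef_add, S.coef_cst (D.geoF0 k) n (S.mem_Icc_of_Ioo hs)]

/-- The derivatives of `F`. -/
lemma hasFDerivAt_F (k : Fin 3) {q : ℝ × ℝ} (hq : q ∈ S.dom) :
    HasFDerivAt (ev (S.cF k)) (ev (S.cu k) q • ContinuousLinearMap.fst ℝ ℝ ℝ +
      ev (S.cv k) q • ContinuousLinearMap.snd ℝ ℝ ℝ) q := by
  rw [← ev_congr (c := dX (S.cF k)) fun n => S.dX_cF k n (mem_box.1 hq).1.le]
  exact hasFDerivAt_ev (S.geo4 _) (S.geo4 _) (S.deriv_cF k) hq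

/-- Slices in time. -/
lemma slice_t {c c' : ℕ → ℝ → ℝ} {T' R' : ℝ} (h : Geo c T' R') (h' : Geo c' T' R')
    (hd : ∀ n t, t ∈ Ioo (-T') T' → HasDerivAt (c n) (c' n t) t) {t x : ℝ}
    (hq : (t, x) ∈ box T' R') : HasDerivAt (fun s => ev c (s, x)) (ev c' (t, x)) t := by
  refine ((hasFDerivAt_ev h h' hd hq).comp_hasDerivAt t
    ((hasDerivAt_id t).prodMk (hasDerivAt_const t x))).congr_deriv ?_
  simp

lemma t_u (k : Fin 3) {t x : ℝ} (hq : (t, x) ∈ S.dom) :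
    HasDerivAt (fun s => ev (S.cu k) (s, x)) (ev (S.cw k) (t, x)) t :=
  slice_t (S.geo4 _) (S.geo4 _) (S.deriv_cu k) hq

lemma t_p (k : Fin 3) {t x : ℝ} (hq : (t, x) ∈ S.dom) :
    HasDerivAt (fun s => ev (S.cp k) (s, x)) (ev (dX (S.cw k)) (t, x)) t :=
  slice_t (S.geo4 _) (S.geo4_dX _) (S.deriv_cp k) hq

lemma t_v (k : Fin 3) {t x : ℝ} (hq : (t, x) ∈ S.dom) :
    HasDerivAt (fun s => ev (S.cv k) (s, x)) (ev (S.cp k) (t, x)) t :=
  slice_t (S.geo4 _) (S.geo4 _) (S.deriv_cv k) hq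

lemma x_u (k : Fin 3) {t x : ℝ} (hq : (t, x) ∈ S.dom) :
    HasDerivAt (fun y => ev (S.cu k) (t, y)) (ev (S.cp k) (t, x)) x := by
  obtain ⟨h1, h2⟩ := mem_box.1 hq
  rw [ev_congr (c := S.cp k) fun n => S.cp_eq k n (t := t) h1.le]
  exact hasDerivAt_ev_snd (S.geo4 _) h1.le h2

lemma x_v (k : Fin 3) {t x : ℝ} (hq : (t, x) ∈ S.dom) :
    HasDerivAt (fun y => ev (S.cv k) (t, y)) (ev (S.cz k) (t, x)) x := by
  obtain ⟨h1, h2⟩ := mem_box.1 hq
  rw [ev_congr (c := S.cz k) fun n => S.cz_eq k n (t := t) h1.le]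
  exact hasDerivAt_ev_snd (S.geo4 _) h1.le h2

lemma x_w (k : Fin 3) {t x : ℝ} (hq : (t, x) ∈ S.dom) :
    HasDerivAt (fun y => ev (S.cw k) (t, y)) (ev (dX (S.cw k)) (t, x)) x :=
  hasDerivAt_ev_snd (S.geo4 _) (mem_box.1 hq).1.le (mem_box.1 hq).2

lemma jet_R_lt : S.P.ρ / 4 < D.R' / 2 ∧ D.R' / 2 < R :=
  ⟨by linarith [S.hρ, S.P.hρ], (half_lt_self D.hR').trans_le D.hle⟩

lemma jet_geo {c : ℕ → ℝ → ℝ} (h : Geo c T R) : Geo c S.P.T (D.R' / 2) :=
  (h.mono_T S.hT).mono (half_pos D.hR').le S.jet_R_lt.2.le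

lemma jet_geo_dX {c : ℕ → ℝ → ℝ} (h : Geo c T R) : Geo (dX c) S.P.T (D.R' / 2) :=
  (h.mono_T S.hT).dX (half_pos D.hR') S.jet_R_lt.2

lemma jet_geo_dX2 {c : ℕ → ℝ → ℝ} (h : Geo c T R) : Geo (dX (dX c)) S.P.T (D.R' / 2) := by
  obtain ⟨R1, h1, h2⟩ := exists_between S.jet_R_lt.2
  exact ((h.mono_T S.hT).dX ((half_pos D.hR').trans h1) h2).dX (half_pos D.hR') h1

lemma jet_mem {q : ℝ × ℝ} (hq : q ∈ S.dom) : q ∈ box S.P.T (D.R' / 2) :=
  mem_box.2 ⟨(mem_box.1 hq).1, (mem_box.1 hq).2.trans S.jet_R_lt.1⟩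

lemma jet_deriv {c c' : ℕ → ℝ → ℝ} (h : ∀ n t, t ∈ Ioo (-T) T → HasDerivAt (c n) (c' n t) t)
    (n : ℕ) (t : ℝ) (ht : t ∈ Ioo (-S.P.T) S.P.T) : HasDerivAt (c n) (c' n t) t :=
  h n t ⟨by linarith [ht.1, S.hT], by linarith [ht.2, S.hT]⟩

lemma jet_t {c c' : ℕ → ℝ → ℝ} (hc : Geo c T R) (hc' : Geo c' T R)
    (h : ∀ n t, t ∈ Ioo (-T) T → HasDerivAt (c n) (c' n t) t) {t x : ℝ} (hq : (t, x) ∈ S.dom) :
    HasDerivAt (fun s => ev c (s, x)) (ev c' (t, x)) t :=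
  slice_t (S.jet_geo hc) (S.jet_geo hc') (S.jet_deriv h) (S.jet_mem hq)

lemma jet_x {c : ℕ → ℝ → ℝ} (hc : Geo c T R) {t x : ℝ} (hq : (t, x) ∈ S.dom) :
    HasDerivAt (fun y => ev c (t, y)) (ev (dX c) (t, x)) x :=
  hasDerivAt_ev_snd (S.jet_geo hc) (mem_box.1 hq).1.le (mem_box.1 (S.jet_mem hq)).2

lemma evS_rhs (i : Fin 3) {q : ℝ × ℝ} (hq : q ∈ S.dom) :
    evS ((inputsOf S.P D).r i) q = ev (rhs A B C i) q :=
  evS_elem (continuous_rhs A B C i)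
    ((geo_rhs A B C (half_pos D.hR') S.jet_R_lt.2 i).mono_T S.hT) S.hρ (mem_box.1 hq).1.le

lemma evS_dot (a b : V3 S.P) {q : ℝ × ℝ} (hq : q ∈ S.dom) :
    evS (dot a b) q = ∑ k, evS (a k) q * evS (b k) q := by
  simp only [dot, Fin.sum_univ_three]
  rw [evS_add _ _ (S.mem_half hq), evS_add _ _ (S.mem_half hq), evS_smul' _ _ (S.mem_half hq),
    evS_smul' _ _ (S.mem_half hq), evS_smul' _ _ (S.mem_half hq)]

lemma evS_eqn (i : Fin 3) (q : ℝ × ℝ) : evS ((inputsOf S.P D).eqn S.w i) q = 0 := by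
  rw [S.heq]
  simp [evS, ev, coef]

/-- The three equations at a point. -/
lemma equations {q : ℝ × ℝ} (hq : q ∈ S.dom) :
    ∑ k, ev (S.cu k) q * ev (S.cw k) q = ev A.c1 q / 2 ∧
    ∑ k, ev (S.cv k) q * ev (S.cw k) q = ev B.c1 q - ev (dX A.c0) q / 2 ∧
    ∑ k, ev (S.cz k) q * ev (S.cw k) q - ∑ k, ev (S.cp k) q * ev (S.cp k) q =
      ev (dX B.c1) q - ev C.c2 q / 2 - ev (dX (dX A.c0)) q / 2 := by
  have hm := S.mem_half hq
  have hj := S.jet_mem hq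
  have hR := (half_pos D.hR').le
  refine ⟨?_, ?_, ?_⟩
  · have h := S.evS_eqn 0 q
    simp only [Inputs.eqn, Matrix.cons_val_zero] at h
    rw [evS_sub _ _ hm, sub_eq_zero, S.evS_dot _ _ hq, S.evS_rhs 0 hq] at h
    refine h.trans ?_
    exact ev_half A.c1 q
  · have h := S.evS_eqn 1 q
    simp only [Inputs.eqn, Matrix.cons_val_one, Matrix.cons_val_zero] at h
    rw [evS_sub _ _ hm, sub_eq_zero, S.evS_dot _ _ hq, S.evS_rhs 1 hq] at h
    refine h.trans ?_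
    show ev (fun n t => B.c1 n t - dX A.c0 n t / 2) q = _
    rw [ev_sub (S.jet_geo B.geo1) ((S.jet_geo_dX A.geo0).half hR) hj, ev_half]
  · have h := S.evS_eqn 2 q
    simp only [Inputs.eqn, Matrix.cons_val_two, Matrix.tail_cons, Matrix.head_cons] at h
    rw [evS_sub _ _ hm, evS_sub _ _ hm, sub_eq_zero, S.evS_dot _ _ hq, S.evS_dot _ _ hq,
      S.evS_rhs 2 hq] at h
    refine h.trans ?_
    show ev (fun n t => (dX B.c1 n t - C.c2 n t / 2) - dX (dX A.c0) n t / 2) q = _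
    rw [ev_sub ((S.jet_geo_dX B.geo1).sub ((S.jet_geo C.geo2).half hR) hR)
      ((S.jet_geo_dX2 A.geo0).half hR) hj, ev_sub (S.jet_geo_dX B.geo1)
      ((S.jet_geo C.geo2).half hR) hj, ev_half, ev_half]

/-- A quantity constant in time which vanishes at time zero vanishes. -/
lemma vanish {f : ℝ × ℝ → ℝ} (hd : ∀ t x, (t, x) ∈ S.dom → HasDerivAt (fun s => f (s, x)) 0 t)
    (h0 : ∀ x, |x| < S.P.ρ / 4 → f (0, x) = 0) {q : ℝ × ℝ} (hq : q ∈ S.dom) : f q = 0 := by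
  obtain ⟨t, x⟩ := q
  have hx : x ∈ Ioo (-(S.P.ρ / 4)) (S.P.ρ / 4) := hq.2
  have hdd : ∀ s ∈ Ioo (-S.P.T) S.P.T, HasDerivAt (fun s => f (s, x)) 0 s := fun s hs =>
    hd s x ⟨hs, hx⟩
  have := isOpen_Ioo.is_const_of_deriv_eq_zero isPreconnected_Ioo
    (fun s hs => (hdd s hs).differentiableAt.differentiableWithinAt)
    (fun s hs => (hdd s hs).deriv) hq.1 (show (0 : ℝ) ∈ Ioo (-S.P.T) S.P.T from
      ⟨by linarith [S.P.hT], S.P.hT⟩)
  exact this.trans (h0 x (abs_lt.2 hx))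

lemma at_zero (k : Fin 3) (x : ℝ) : ev (S.cu k) (0, x) = ev (cst (D.U k)) (0, x) ∧
    ev (S.cv k) (0, x) = ev (cst (D.V k)) (0, x) ∧
    ev (S.cp k) (0, x) = ev (dX (cst (D.U k))) (0, x) := by
  have h0 : |(0 : ℝ)| ≤ S.P.T := by simpa using S.P.hT.le
  refine ⟨ev_congr fun n => ?_, ev_congr fun n => ?_, ev_congr fun n => ?_⟩
  · rw [S.cu_eq k n h0, coef_intT _ _ h0]; simp [cst]
  · rw [S.cv_eq k n h0, coef_intT _ _ h0]; simp [cst]
  · rw [S.cp_eq k n h0, dX, dX, S.cu_eq k _ h0, coef_intT _ _ h0]; simp [cst]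

lemma lt_R' {x : ℝ} (hx : |x| < S.P.ρ / 4) : |x| < D.R' := by
  linarith [S.jet_R_lt.1, D.hR']

lemma norm_u {q : ℝ × ℝ} (hq : q ∈ S.dom) :
    ∑ k, ev (S.cu k) q * ev (S.cu k) q = ev A.c0 q := by
  refine sub_eq_zero.1 (S.vanish (f := fun q => ∑ k, ev (S.cu k) q * ev (S.cu k) q - ev A.c0 q)
    (fun t x h => ?_) (fun x hx => ?_) hq)
  · have h2 := (HasDerivAt.fun_sum (u := Finset.univ)
      fun k _ => (S.t_u k h).fun_mul (S.t_u k h)).sub (S.jet_t A.geo0 A.geo1 A.deriv0 h)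
    refine h2.congr_deriv ?_
    have e := (S.equations h).1
    simp only [Fin.sum_univ_three] at e ⊢
    linarith
  · simp only [fun k => (S.at_zero k x).1, D.eq11 x (S.lt_R' hx), sub_self]

lemma dot_up {t x : ℝ} (h : (t, x) ∈ S.dom) :
    ∑ k, ev (S.cu k) (t, x) * ev (S.cp k) (t, x) = ev (dX A.c0) (t, x) / 2 := by
  have h1 := HasDerivAt.fun_sum (u := Finset.univ) fun k _ => (S.x_u k h).fun_mul (S.x_u k h)
  have h2 := (S.jet_x A.geo0 h).congr_of_eventuallyEq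
    ((slice_eventually S.isOpen_dom (q := (t, x)) h).mono fun y hy => S.norm_u hy)
  have e := h1.unique h2
  simp only [Fin.sum_univ_three] at e ⊢
  linarith

lemma dot_uv {q : ℝ × ℝ} (hq : q ∈ S.dom) :
    ∑ k, ev (S.cu k) q * ev (S.cv k) q = ev B.c0 q := by
  refine sub_eq_zero.1 (S.vanish (f := fun q => ∑ k, ev (S.cu k) q * ev (S.cv k) q - ev B.c0 q)
    (fun t x h => ?_) (fun x hx => ?_) hq)
  · have h2 := (HasDerivAt.fun_sum (u := Finset.univ)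
      fun k _ => (S.t_u k h).fun_mul (S.t_v k h)).sub (S.jet_t B.geo0 B.geo1 B.deriv0 h)
    refine h2.congr_deriv ?_
    have e := (S.equations h).2.1
    have e' := S.dot_up h
    simp only [Fin.sum_univ_three] at e e' ⊢
    linarith
  · simp only [fun k => (S.at_zero k x).1, fun k => (S.at_zero k x).2.1, D.eq12 x (S.lt_R' hx),
      sub_self]

lemma dot_vp {q : ℝ × ℝ} (hq : q ∈ S.dom) :
    ∑ k, ev (S.cv k) q * ev (S.cp k) q = ev C.c1 q / 2 := by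
  refine sub_eq_zero.1 (S.vanish
    (f := fun q => ∑ k, ev (S.cv k) q * ev (S.cp k) q - ev C.c1 q / 2)
    (fun t x h => ?_) (fun x hx => ?_) hq)
  · have h2 := (HasDerivAt.fun_sum (u := Finset.univ)
      fun k _ => (S.t_v k h).fun_mul (S.t_p k h)).sub
      ((S.jet_t C.geo1 C.geo2 C.deriv1 h).div_const 2)
    refine h2.congr_deriv ?_
    have h3 := HasDerivAt.fun_sum (u := Finset.univ) fun k _ => (S.x_v k h).fun_mul (S.x_w k h)
    have h4 : HasDerivAt (fun y => ∑ k, ev (S.cv k) (t, y) * ev (S.cw k) (t, y))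
        (ev (dX B.c1) (t, x) - ev (dX (dX A.c0)) (t, x) / 2) x := by
      refine ((S.jet_x B.geo1 h).sub ((hasDerivAt_ev_snd (S.jet_geo_dX A.geo0)
        (mem_box.1 h).1.le (mem_box.1 (S.jet_mem h)).2).div_const 2)).congr_of_eventuallyEq ?_
      exact (slice_eventually S.isOpen_dom (q := (t, x)) h).mono fun y hy => (S.equations hy).2.1
    have e1 := h3.unique h4
    have e2 := (S.equations h).2.2
    simp only [Fin.sum_univ_three] at e1 e2 ⊢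
    linarith
  · simp only [fun k => (S.at_zero k x).2.2, fun k => (S.at_zero k x).2.1,
      D.eqd x (S.lt_R' hx), sub_self]

lemma norm_v {q : ℝ × ℝ} (hq : q ∈ S.dom) :
    ∑ k, ev (S.cv k) q * ev (S.cv k) q = ev C.c0 q := by
  refine sub_eq_zero.1 (S.vanish (f := fun q => ∑ k, ev (S.cv k) q * ev (S.cv k) q - ev C.c0 q)
    (fun t x h => ?_) (fun x hx => ?_) hq)
  · have h2 := (HasDerivAt.fun_sum (u := Finset.univ)
      fun k _ => (S.t_v k h).fun_mul (S.t_v k h)).sub (S.jet_t C.geo0 C.geo1 C.deriv0 h)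
    refine h2.congr_deriv ?_
    have e := S.dot_vp h
    simp only [Fin.sum_univ_three] at e ⊢
    linarith
  · simp only [fun k => (S.at_zero k x).2.1, D.eq22 x (S.lt_R' hx), sub_self]

/-- The series of a jet has the derivatives of a jet. -/
lemma smooth_next {c c' : ℕ → ℝ → ℝ} (hc : Geo c S.P.T (D.R' / 2)) (hc' : Geo c' S.P.T (D.R' / 2))
    (hd : ∀ n t, t ∈ Ioo (-S.P.T) S.P.T → HasDerivAt (c n) (c' n t) t)
    (h : ContDiffOn ℝ ∞ (ev c) S.dom) :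
    ContDiffOn ℝ ∞ (ev c') S.dom ∧ ContDiffOn ℝ ∞ (ev (dX c)) S.dom := by
  have hf := h.fderiv_of_isOpen S.isOpen_dom (by simp : (∞ : WithTop ℕ∞) + 1 ≤ ∞)
  exact ⟨(hf.clm_apply contDiffOn_const (g := fun _ => ex0)).congr
      fun q hq => (Dt_ev hc hc' hd (S.jet_mem hq)).symm,
    (hf.clm_apply contDiffOn_const (g := fun _ => ex1)).congr
      fun q hq => (Dx_ev hc hc' hd (S.jet_mem hq)).symm⟩

lemma smooth_rhs (hA : ContDiffOn ℝ ∞ (ev A.c0) S.dom) (hB : ContDiffOn ℝ ∞ (ev B.c0) S.dom)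
    (hC : ContDiffOn ℝ ∞ (ev C.c0) S.dom) (i : Fin 3) :
    ContDiffOn ℝ ∞
      (![fun q => ev A.c1 q / 2, fun q => ev B.c1 q - ev (dX A.c0) q / 2,
        fun q => ev (dX B.c1) q - ev C.c2 q / 2 - ev (dX (dX A.c0)) q / 2] i) S.dom := by
  have a := S.smooth_next (S.jet_geo A.geo0) (S.jet_geo A.geo1) (S.jet_deriv A.deriv0) hA
  have b := S.smooth_next (S.jet_geo B.geo0) (S.jet_geo B.geo1) (S.jet_deriv B.deriv0) hB
  have b' := S.smooth_next (S.jet_geo B.geo1) (S.jet_geo B.geo2) (S.jet_deriv B.deriv1) b.1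
  have c := S.smooth_next (S.jet_geo C.geo0) (S.jet_geo C.geo1) (S.jet_deriv C.deriv0) hC
  have c' := S.smooth_next (S.jet_geo C.geo1) (S.jet_geo C.geo2) (S.jet_deriv C.deriv1) c.1
  have a' := S.smooth_next (S.jet_geo_dX A.geo0) (S.jet_geo_dX A.geo1)
    (fun n t ht => (S.jet_deriv A.deriv0 (n + 1) t ht).const_mul _) a.2
  fin_cases i
  · exact a.1.div_const 2
  · exact b.1.sub (a.2.div_const 2)
  · exact (b'.2.sub (c'.1.div_const 2)).sub (a'.2.div_const 2)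

/-- `F_tt` solves a linear system. -/
lemma w_eq {q : ℝ × ℝ} (hq : q ∈ S.dom) (i : Fin 3) :
    ev (S.cw i) q =
      (Matrix.of ![fun k => ev (S.cu k) q, fun k => ev (S.cv k) q,
        fun k => ev (S.cz k) q]).adjugate.mulVec ![ev A.c1 q / 2, ev B.c1 q - ev (dX A.c0) q / 2,
          ev (dX B.c1) q - ev C.c2 q / 2 - ev (dX (dX A.c0)) q / 2 +
            ∑ k, ev (S.cp k) q * ev (S.cp k) q] i /
      (Matrix.of ![fun k => ev (S.cu k) q, fun k => ev (S.cv k) q,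
        fun k => ev (S.cz k) q]).det := by
  obtain ⟨e1, e2, e3⟩ := S.equations hq
  set M := Matrix.of ![fun k => ev (S.cu k) q, fun k => ev (S.cv k) q, fun k => ev (S.cz k) q]
  have hM : M.mulVec (fun k => ev (S.cw k) q) = ![ev A.c1 q / 2,
      ev B.c1 q - ev (dX A.c0) q / 2, ev (dX B.c1) q - ev C.c2 q / 2 - ev (dX (dX A.c0)) q / 2 +
        ∑ k, ev (S.cp k) q * ev (S.cp k) q] := by
    funext j
    fin_cases j
    · exact e1
    · exact e2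
    · show ∑ k, ev (S.cz k) q * ev (S.cw k) q = _
      simp only [Fin.reduceFinMk, Matrix.cons_val_two, Matrix.tail_cons, Matrix.head_cons]
      linarith
  have hdet : M.det ≠ 0 := S.hdet q (S.mem_half hq)
  rw [← hM, Matrix.mulVec_mulVec, Matrix.adjugate_mul, Matrix.smul_mulVec, Matrix.one_mulVec,
    Pi.smul_apply, smul_eq_mul, mul_div_cancel_left₀ _ hdet]

/-- All series of the solution are in every class. -/
lemma inX_all (hA : ContDiffOn ℝ ∞ (ev A.c0) S.dom) (hB : ContDiffOn ℝ ∞ (ev B.c0) S.dom)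
    (hC : ContDiffOn ℝ ∞ (ev C.c0) S.dom) : ∀ k : ℕ, (∀ i, InX S.dom k (ev (S.cw i))) ∧
      (∀ i, InX S.dom k (ev (S.cu i))) ∧ (∀ i, InX S.dom k (ev (S.cp i))) ∧
      (∀ i, InX S.dom k (ev (S.cv i))) ∧ (∀ i, InX S.dom k (ev (S.cz i))) ∧
      (∀ i, InX S.dom k (ev (S.cF i)))
  | 0 => by
    have h0 : ∀ a : Sp S.P, InX S.dom 0 (ev (coef a)) := fun a =>
      inX_zero_ev S.quarter_pos S.quarter_lt (S.geo3 a) (continuous_coef a)
    exact ⟨fun i => h0 _, fun i => h0 _, fun i => h0 _, fun i => h0 _, fun i => h0 _, fun i => h0 _⟩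
  | k + 1 => by
    obtain ⟨hw, hu, hp, hv, hz, hF⟩ := inX_all hA hB hC k
    have hlt := S.quarter_lt
    have h0 := S.quarter_pos
    have dw : ∀ i, InX S.dom k (ev (dX (S.cw i))) := fun i => (hw i).dx.congr S.isOpen_dom
      fun q hq => (dx_iterate_ev h0 hlt (S.geo3 _) 1 hq).symm
    have dp : ∀ i, InX S.dom k (ev (dX (S.cp i))) := fun i => (hp i).dx.congr S.isOpen_dom
      fun q hq => (dx_iterate_ev h0 hlt (S.geo3 _) 1 hq).symm
    have hu' : ∀ i, InX S.dom (k + 1) (ev (S.cu i)) := fun i =>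
      inX_succ_ev h0 hlt (S.geo3 _) (S.geo3 _) (S.deriv_cu i) (hu i) (hw i)
    have hp' : ∀ i, InX S.dom (k + 1) (ev (S.cp i)) := fun i =>
      inX_succ_ev h0 hlt (S.geo3 _) (S.geo3_dX _) (S.deriv_cp i) (hp i) (dw i)
    have hv' : ∀ i, InX S.dom (k + 1) (ev (S.cv i)) := fun i =>
      inX_succ_ev h0 hlt (S.geo3 _) (S.geo3 _) (S.deriv_cv i) (hv i) (hp i)
    have hz' : ∀ i, InX S.dom (k + 1) (ev (S.cz i)) := fun i =>
      inX_succ_ev h0 hlt (S.geo3 _) (S.geo3_dX _) (S.deriv_cz i) (hz i) (dp i)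
    have hF' : ∀ i, InX S.dom (k + 1) (ev (S.cF i)) := fun i =>
      inX_succ_ev h0 hlt (S.geo3 _) (S.geo3 _) (S.deriv_cF i) (hF i) (hu i)
    have hr : ∀ i, InX S.dom (k + 1) _ := fun i =>
      InX.of_smooth S.isOpen_dom (S.smooth_rhs hA hB hC i)
    have hpp : InX S.dom (k + 1) (fun q => ∑ i, ev (S.cp i) q * ev (S.cp i) q) :=
      InX.comp S.isOpen_dom isOpen_univ (Φ := fun y : Fin 3 → ℝ => ∑ i, y i * y i)
        (by fun_prop) (InX.vec3 S.isOpen_dom hp') (mapsTo_univ _ _)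
    have hlast : InX S.dom (k + 1) (fun q => ev (dX B.c1) q - ev C.c2 q / 2 -
        ev (dX (dX A.c0)) q / 2 + ∑ i, ev (S.cp i) q * ev (S.cp i) q) :=
      InX.comp S.isOpen_dom isOpen_univ (Φ := fun y : ℝ × ℝ => y.1 + y.2) (by fun_prop)
        ((hr 2).prodMk S.isOpen_dom hpp) (mapsTo_univ _ _)
    have hrv : InX S.dom (k + 1) (fun q => ![ev A.c1 q / 2, ev B.c1 q - ev (dX A.c0) q / 2,
        ev (dX B.c1) q - ev C.c2 q / 2 - ev (dX (dX A.c0)) q / 2 +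
          ∑ i, ev (S.cp i) q * ev (S.cp i) q]) := by
      refine (InX.vec3 S.isOpen_dom (f := ![fun q => ev A.c1 q / 2,
        fun q => ev B.c1 q - ev (dX A.c0) q / 2, fun q => ev (dX B.c1) q - ev C.c2 q / 2 -
          ev (dX (dX A.c0)) q / 2 + ∑ i, ev (S.cp i) q * ev (S.cp i) q]) fun i => ?_).congr
            S.isOpen_dom fun q _ => ?_
      · fin_cases i
        · exact hr 0
        · exact hr 1
        · exact hlast
      · funext i; fin_cases i <;> rfl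
    have hY := ((InX.vec3 S.isOpen_dom hu').prodMk S.isOpen_dom
      ((InX.vec3 S.isOpen_dom hv').prodMk S.isOpen_dom (InX.vec3 S.isOpen_dom hz'))).prodMk
        S.isOpen_dom hrv
    refine ⟨fun i => ?_, hu', hp', hv', hz', hF'⟩
    exact (InX.comp S.isOpen_dom (contDiffOn_solve i).1 (contDiffOn_solve i).2 hY
      fun q hq => S.hdet q (S.mem_half hq)).congr S.isOpen_dom fun q hq => S.w_eq hq i

lemma smooth_F (hA : ContDiffOn ℝ ∞ (ev A.c0) S.dom) (hB : ContDiffOn ℝ ∞ (ev B.c0) S.dom)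
    (hC : ContDiffOn ℝ ∞ (ev C.c0) S.dom) (i : Fin 3) : ContDiffOn ℝ ∞ (ev (S.cF i)) S.dom :=
  contDiffOn_infty.2 fun k => ((S.inX_all hA hB hC k).2.2.2.2.2 i 0).1

end Fix

end Vale.Agent.P229
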