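import Mathlib
import Vale.Agent.P229.Solution

/-!
Local isometric realisation of metrics which are analytic in one coordinate of some smooth chart.
-/

noncomputable section

open Set Filter Metric
open scoped Topology ContDiff InnerProductSpace

namespace Vale.Agent.P229

/-- The two coordinate vectors. -/
def coordVec (i : Fin 2) : ℝ × ℝ := ![ex0, ex1] i

/-- The two coordinates of a vector. -/
def coordOf (v : ℝ × ℝ) (i : Fin 2) : ℝ := ![v.1, v.2] i

/-- A smooth local isometric realisation in Euclidean space near a point. -/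
def LocallyRealizable (g : ℝ × ℝ → Matrix (Fin 2) (Fin 2) ℝ) (p : ℝ × ℝ) : Prop :=
  ∃ U : Set (ℝ × ℝ), IsOpen U ∧ p ∈ U ∧ ∃ F : ℝ × ℝ → EuclideanSpace ℝ (Fin 3),
    ContDiffOn ℝ ∞ F U ∧ ∀ q ∈ U, ∀ i j : Fin 2,
      ⟪fderiv ℝ F q (coordVec i), fderiv ℝ F q (coordVec j)⟫_ℝ = g q i j

/-- The components of the metric in the coordinates given by a parametrisation. -/
def pullMetric (g : ℝ × ℝ → Matrix (Fin 2) (Fin 2) ℝ) (φ : ℝ × ℝ → ℝ × ℝ) (i j : Fin 2)
    (y : ℝ × ℝ) : ℝ :=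
  ∑ k, ∑ l, g (φ y) k l * coordOf (fderiv ℝ φ y (coordVec i)) k *
    coordOf (fderiv ℝ φ y (coordVec j)) l

/-- Some smooth chart around the point in which the metric is analytic in the second coordinate. -/
def HasSndAnalyticChart (g : ℝ × ℝ → Matrix (Fin 2) (Fin 2) ℝ) (p : ℝ × ℝ) : Prop :=
  ∃ (φ ψ : ℝ × ℝ → ℝ × ℝ) (V W : Set (ℝ × ℝ)), IsOpen V ∧ IsOpen W ∧ p ∈ W ∧
    ContDiffOn ℝ ∞ φ V ∧ ContDiffOn ℝ ∞ ψ W ∧ MapsTo ψ W V ∧ (∀ q ∈ W, φ (ψ q) = q) ∧
    ∀ i j, AnalyticSndNear (pullMetric g φ i j) (ψ p)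

/-- The case of a metric which is analytic in the second coordinate. -/
theorem core {O : Set (ℝ × ℝ)} (hO : IsOpen O) {h : Fin 2 → Fin 2 → ℝ × ℝ → ℝ}
    (hsm : ∀ i j, ContDiffOn ℝ ∞ (h i j) O) (hsymm : ∀ y ∈ O, h 1 0 y = h 0 1 y) {p : ℝ × ℝ}
    (hp : p ∈ O) (hpos : 0 < h 1 1 p) (hdet : h 0 1 p ^ 2 < h 0 0 p * h 1 1 p)
    (han : ∀ i j, AnalyticSndNear (h i j) p) :
    ∃ U : Set (ℝ × ℝ), IsOpen U ∧ p ∈ U ∧ U ⊆ O ∧ ∃ F : ℝ × ℝ → EuclideanSpace ℝ (Fin 3),
      ContDiffOn ℝ ∞ F U ∧ ∀ q ∈ U, ∀ i j : Fin 2,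
        ⟪fderiv ℝ F q (coordVec i), fderiv ℝ F q (coordVec j)⟫_ℝ = h i j q := by
  obtain ⟨TA, RA, hTA, hRA, JA, hJA⟩ := exists_jet hO (hsm 0 0) hp (han 0 0)
  obtain ⟨TB, RB, hTB, hRB, JB, hJB⟩ := exists_jet hO (hsm 0 1) hp (han 0 1)
  obtain ⟨TC, RC, hTC, hRC, JC, hJC⟩ := exists_jet hO (hsm 1 1) hp (han 1 1)
  set T := min TA (min TB TC)
  set R := min RA (min RB RC)
  have hT : 0 < T := lt_min hTA (lt_min hTB hTC)
  have hR : 0 < R := lt_min hRA (lt_min hRB hRC)
  set A := JA.mono (T' := T) (R' := R) (min_le_left _ _) hR.le (min_le_left _ _)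
  set B := JB.mono (T' := T) (R' := R) ((min_le_right _ _).trans (min_le_left _ _)) hR.le
    ((min_le_right _ _).trans (min_le_left _ _))
  set C := JC.mono (T' := T) (R' := R) ((min_le_right _ _).trans (min_le_right _ _)) hR.le
    ((min_le_right _ _).trans (min_le_right _ _))
  have heq : ∀ q ∈ box T R, p + q ∈ O ∧ h 0 0 (p + q) = ev A.c0 q ∧
      h 0 1 (p + q) = ev B.c0 q ∧ h 1 1 (p + q) = ev C.c0 q := by
    intro q hq
    obtain ⟨h1, h2⟩ := mem_box.1 hq
    have hA := hJA q (mem_box.2 ⟨h1.trans_le (min_le_left _ _), h2.trans_le (min_le_left _ _)⟩)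
    exact ⟨hA.1, hA.2,
      (hJB q (mem_box.2 ⟨h1.trans_le ((min_le_right _ _).trans (min_le_left _ _)),
        h2.trans_le ((min_le_right _ _).trans (min_le_left _ _))⟩)).2,
      (hJC q (mem_box.2 ⟨h1.trans_le ((min_le_right _ _).trans (min_le_right _ _)),
        h2.trans_le ((min_le_right _ _).trans (min_le_right _ _))⟩)).2⟩
  obtain ⟨-, e00, e01, e11⟩ := heq (0, 0) (mem_box.2 ⟨by simpa using hT, by simpa using hR⟩)
  rw [show p + ((0 : ℝ), (0 : ℝ)) = p from by simp] at e00 e01 e11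
  obtain ⟨D⟩ := exists_data hT hR A B C (e11 ▸ hpos) (by rw [← e00, ← e01, ← e11]; exact hdet)
  obtain ⟨P, w, hPT, hPρ, hw, hwdet⟩ := exists_params hT D
  set S : Fix D := ⟨P, w, hPT, hPρ, hw, hwdet⟩
  have hsub : S.dom ⊆ box T R := fun q hq => mem_box.2
    ⟨(mem_box.1 hq).1.trans_le S.hT, (mem_box.1 (S.jet_mem hq)).2.trans S.jet_R_lt.2⟩
  have hshift : ∀ i j, ContDiffOn ℝ ∞ (fun q => h i j (p + q)) S.dom := fun i j =>
    (hsm i j).comp (contDiffOn_const.add contDiffOn_id) fun q hq => (heq q (hsub hq)).1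
  have hFs := S.smooth_F
    ((hshift 0 0).congr fun q hq => (heq q (hsub hq)).2.1.symm)
    ((hshift 0 1).congr fun q hq => (heq q (hsub hq)).2.2.1.symm)
    ((hshift 1 1).congr fun q hq => (heq q (hsub hq)).2.2.2.symm)
  set U : Set (ℝ × ℝ) := (fun y => y - p) ⁻¹' S.dom
  have hU : IsOpen U := S.isOpen_dom.preimage (by fun_prop)
  have hpU : p ∈ U := by
    show p - p ∈ S.dom
    rw [sub_self]
    exact mem_box.2 ⟨by simpa using S.P.hT, by simpa using S.quarter_pos⟩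
  set F : ℝ × ℝ → EuclideanSpace ℝ (Fin 3) :=
    fun y => WithLp.toLp 2 fun k => ev (S.cF k) (y - p) with hF
  have hFc : ContDiffOn ℝ ∞ F U := contDiffOn_piLp' (p := 2) fun k =>
    (hFs k).comp (contDiffOn_id.sub contDiffOn_const) fun y hy => hy
  refine ⟨U, hU, hpU, fun y hy => ?_, F, hFc, fun y hy i j => ?_⟩
  · simpa using (heq (y - p) (hsub hy)).1
  have hd : DifferentiableAt ℝ F y :=
    ((hFc.differentiableOn (by simp)) y hy).differentiableAt (hU.mem_nhds hy)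
  have hcomp : ∀ (v : ℝ × ℝ) (k : Fin 3), (fderiv ℝ F y v) k =
      ev (S.cu k) (y - p) * v.1 + ev (S.cv k) (y - p) * v.2 := by
    intro v k
    have h1 : HasFDerivAt (fun y => F y k)
        ((EuclideanSpace.proj (𝕜 := ℝ) k).comp (fderiv ℝ F y)) y :=
      (EuclideanSpace.proj (𝕜 := ℝ) k).hasFDerivAt.comp y hd.hasFDerivAt
    have h2 : HasFDerivAt (fun y => F y k)
        (ev (S.cu k) (y - p) • ContinuousLinearMap.fst ℝ ℝ ℝ +
          ev (S.cv k) (y - p) • ContinuousLinearMap.snd ℝ ℝ ℝ) y := by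
      have h3 := (S.hasFDerivAt_F k (q := y - p) hy).comp y ((hasFDerivAt_id y).sub_const p)
      simpa [hF, Function.comp_def] using h3
    simpa using DFunLike.congr_fun (h1.unique h2) v
  obtain ⟨hyO, y00, y01, y11⟩ := heq (y - p) (hsub hy)
  rw [add_sub_cancel] at hyO y00 y01 y11
  have eA := S.norm_u (q := y - p) hy
  have eB := S.dot_uv (q := y - p) hy
  have eC := S.norm_v (q := y - p) hy
  rw [PiLp.inner_apply]
  simp only [hcomp, RCLike.inner_apply, conj_trivial]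
  fin_cases i <;> fin_cases j <;>
    simp only [coordVec, ex0, ex1, Fin.zero_eta, Fin.mk_one, Matrix.cons_val_zero,
      Matrix.cons_val_one, mul_one, mul_zero, add_zero, zero_add]
  · rw [y00, ← eA]
  · rw [y01, ← eB]; exact Finset.sum_congr rfl fun k _ => mul_comm _ _
  · rw [hsymm y hyO, y01, ← eB]
  · rw [y11, ← eC]

lemma coord_sum (v : ℝ × ℝ) : v = ∑ i, coordOf v i • coordVec i := by
  simp [coordOf, coordVec, ex0, ex1, Fin.sum_univ_two, Prod.ext_iff]

theorem realizable_of_chart {Ω : Set (ℝ × ℝ)} (hΩ : IsOpen Ω)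
    {g : ℝ × ℝ → Matrix (Fin 2) (Fin 2) ℝ} (hsm : ∀ i j, ContDiffOn ℝ ∞ (fun q => g q i j) Ω)
    (hpd : ∀ q ∈ Ω, (g q).PosDef) {p : ℝ × ℝ} (hp : p ∈ Ω) (hc : HasSndAnalyticChart g p) :
    LocallyRealizable g p := by
  obtain ⟨φ, ψ, V, W, hV, hW, hpW, hφ, hψ, hmaps, hinv, han⟩ := hc
  set O := V ∩ φ ⁻¹' Ω with hOd
  have hO : IsOpen O := hφ.continuousOn.isOpen_inter_preimage hV hΩ
  have hy0 : ψ p ∈ O := ⟨hmaps hpW, show φ (ψ p) ∈ Ω by rw [hinv p hpW]; exact hp⟩
  have hsym : ∀ q ∈ Ω, g q 1 0 = g q 0 1 := fun q hq => by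
    have h := (hpd q hq).isHermitian.apply 0 1
    simpa using h
  set h : Fin 2 → Fin 2 → ℝ × ℝ → ℝ := fun i j => pullMetric g φ i j with hh
  have hcoord : ContDiff ℝ ∞ coordOf :=
    contDiff_pi.2 fun i => by fin_cases i <;> simp [coordOf] <;> fun_prop
  have hhsm : ∀ i j, ContDiffOn ℝ ∞ (h i j) O := by
    intro i j
    have hfd : ∀ v : ℝ × ℝ, ∀ k, ContDiffOn ℝ ∞ (fun y => coordOf (fderiv ℝ φ y v) k) O :=
      fun v k => (contDiff_pi.1 hcoord k).comp_contDiffOn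
        ((((hφ.fderiv_of_isOpen hV (by simp)).clm_apply contDiffOn_const)).mono inter_subset_left)
    exact ContDiffOn.sum fun k _ => ContDiffOn.sum fun l _ =>
      (((hsm k l).comp (hφ.mono inter_subset_left) fun y hy => hy.2).mul (hfd _ k)).mul (hfd _ l)
  have hhsymm : ∀ y ∈ O, h 1 0 y = h 0 1 y := by
    intro y hy
    simp only [hh, pullMetric, Fin.sum_univ_two, hsym _ hy.2]
    ring
  have hcomp : ∀ q ∈ W, ∀ v, fderiv ℝ φ (ψ q) (fderiv ℝ ψ q v) = v := by
    intro q hq v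
    have h1 : DifferentiableAt ℝ ψ q :=
      ((hψ.differentiableOn (by simp)) q hq).differentiableAt (hW.mem_nhds hq)
    have h2 : DifferentiableAt ℝ φ (ψ q) :=
      ((hφ.differentiableOn (by simp)) _ (hmaps hq)).differentiableAt (hV.mem_nhds (hmaps hq))
    have h3 := (h2.hasFDerivAt.comp q h1.hasFDerivAt).unique ((hasFDerivAt_id q).congr_of_eventuallyEq
      (by filter_upwards [hW.mem_nhds hq] with z hz using hinv z hz))
    simpa using DFunLike.congr_fun h3 v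
  -- the pulled back quadratic form
  have hquad : ∀ c : Fin 2 → ℝ, c ≠ 0 →
      0 < c 0 * c 0 * h 0 0 (ψ p) + 2 * (c 0 * c 1) * h 0 1 (ψ p) + c 1 * c 1 * h 1 1 (ψ p) := by
    intro c hc
    set L := fderiv ℝ φ (ψ p) with hL
    have hsurj : Function.Surjective L := fun v => ⟨_, hcomp p hpW v⟩
    have hinj : Function.Injective L :=
      (LinearMap.injective_iff_surjective (f := (L : ℝ × ℝ →ₗ[ℝ] ℝ × ℝ))).2 hsurj
    set x : Fin 2 → ℝ := coordOf (L (∑ i, c i • coordVec i)) with hx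
    have hx0 : x ≠ 0 := by
      intro h0
      have h1 : L (∑ i, c i • coordVec i) = 0 := by
        rw [coord_sum (L _)]
        rw [hx] at h0
        simp only [h0, Pi.zero_apply, zero_smul, Finset.sum_const_zero]
      have h2 := hinj (h1.trans (map_zero L).symm)
      apply hc
      simp [coordVec, ex0, ex1, Fin.sum_univ_two, Prod.ext_iff] at h2
      funext i
      fin_cases i <;> simp [h2.1, h2.2]
    have := (hpd _ hy0.2).dotProduct_mulVec_pos hx0
    simp only [star_trivial, dotProduct, Matrix.mulVec, Fin.sum_univ_two] at this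
    refine this.trans_le (le_of_eq ?_)
    simp only [hh, pullMetric, hx, hL, Fin.sum_univ_two, map_add, map_smul, coordOf,
      Matrix.cons_val_zero, Matrix.cons_val_one, Prod.fst_add, Prod.snd_add, Prod.smul_fst,
      Prod.smul_snd, smul_eq_mul, hsym _ hy0.2]
    ring
  have hpos : 0 < h 1 1 (ψ p) := by
    have := hquad ![0, 1] (fun e => by simpa using congrFun e 1)
    simpa using this
  have hdet : h 0 1 (ψ p) ^ 2 < h 0 0 (ψ p) * h 1 1 (ψ p) := by
    have := hquad ![h 1 1 (ψ p), -h 0 1 (ψ p)] (fun e => hpos.ne' (by simpa using congrFun e 0))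
    simp at this
    nlinarith
  obtain ⟨U, hU, hyU, hUO, F, hF, hiso⟩ := core hO hhsm hhsymm hy0 hpos hdet han
  refine ⟨W ∩ ψ ⁻¹' U, hψ.continuousOn.isOpen_inter_preimage hW hU, ⟨hpW, hyU⟩,
    fun q => F (ψ q), hF.comp (hψ.mono inter_subset_left) fun q hq => hq.2, ?_⟩
  rintro q ⟨hqW, hqU⟩ i j
  have hdF : DifferentiableAt ℝ F (ψ q) :=
    ((hF.differentiableOn (by simp)) _ hqU).differentiableAt (hU.mem_nhds hqU)
  have hdψ : DifferentiableAt ℝ ψ q :=
    ((hψ.differentiableOn (by simp)) q hqW).differentiableAt (hW.mem_nhds hqW)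
  have e : fderiv ℝ (fun q => F (ψ q)) q = (fderiv ℝ F (ψ q)).comp (fderiv ℝ ψ q) :=
    (hdF.hasFDerivAt.comp q hdψ.hasFDerivAt).fderiv
  simp only [e, ContinuousLinearMap.comp_apply]
  set L := fderiv ℝ φ (ψ q) with hL
  set v := fderiv ℝ ψ q (coordVec i) with hv
  set v' := fderiv ℝ ψ q (coordVec j) with hv'
  have hLv : L v = coordVec i := hcomp q hqW _
  have hLv' : L v' = coordVec j := hcomp q hqW _
  calc ⟪fderiv ℝ F (ψ q) v, fderiv ℝ F (ψ q) v'⟫_ℝ
      = ∑ a, ∑ b, coordOf v a * coordOf v' b * h a b (ψ q) := by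
        conv_lhs => rw [coord_sum v, coord_sum v']
        simp only [Fin.sum_univ_two, map_add, map_smul, inner_add_left, inner_add_right,
          real_inner_smul_left, real_inner_smul_right, hiso _ hqU]
        ring
    _ = ∑ k, ∑ l, g (φ (ψ q)) k l * coordOf (L v) k * coordOf (L v') l := by
        conv_rhs => rw [coord_sum v, coord_sum v']
        simp only [hh, pullMetric, ← hL, Fin.sum_univ_two, map_add, map_smul, coordOf,
          Matrix.cons_val_zero, Matrix.cons_val_one, Prod.fst_add, Prod.snd_add, Prod.smul_fst,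
          Prod.smul_snd, smul_eq_mul]
        ring
    _ = g q i j := by
        rw [hLv, hLv', hinv q hqW]
        fin_cases i <;> fin_cases j <;> simp [coordOf, coordVec, ex0, ex1, Fin.sum_univ_two]

end Vale.Agent.P229
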